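/- R126 (S0170): the smooth self-similar step function (Fabius / Rvachev). -/
import Mathlib

set_option autoImplicit false
open scoped ContDiff

namespace Crest.Agent.R126

open MeasureTheory Set Filter

/-- window average -/
noncomputable def wavg (g : ℝ → ℝ) (x : ℝ) : ℝ := ∫ v in (2 * x - 1)..(2 * x), g v

theorem wavg_eq (g : ℝ → ℝ) (x : ℝ) : wavg g x = ∫ u in (0:ℝ)..1, g (2 * x - u) := by
  rw [intervalIntegral.integral_comp_sub_left]; simp [wavg]

/-- the invariant class -/
structure StepLike (g : ℝ → ℝ) : Prop where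
  cont : Continuous g
  zero : ∀ x, x ≤ 0 → g x = 0
  one : ∀ x, 1 ≤ x → g x = 1
  symm : ∀ x, g x + g (1 - x) = 1
  mono : Monotone g

theorem wavg_eq_sub {g : ℝ → ℝ} (hg : Continuous g) (x : ℝ) :
    wavg g x = (∫ v in (0:ℝ)..(2 * x), g v) - ∫ v in (0:ℝ)..(2 * x - 1), g v := by
  unfold wavg
  rw [intervalIntegral.integral_interval_sub_left (hg.intervalIntegrable _ _) (hg.intervalIntegrable _ _)]

theorem continuous_primitive' {g : ℝ → ℝ} (hg : Continuous g) :
    Continuous fun y => ∫ v in (0:ℝ)..y, g v :=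
  intervalIntegral.continuous_primitive (fun a b => hg.intervalIntegrable a b) 0

theorem continuous_wavg {g : ℝ → ℝ} (hg : Continuous g) : Continuous (wavg g) := by
  have h : wavg g = fun x => (∫ v in (0:ℝ)..(2 * x), g v) - ∫ v in (0:ℝ)..(2 * x - 1), g v := by
    funext x; exact wavg_eq_sub hg x
  rw [h]
  exact ((continuous_primitive' hg).comp (by fun_prop)).sub ((continuous_primitive' hg).comp (by fun_prop))

theorem hasDerivAt_wavg {g : ℝ → ℝ} (hg : Continuous g) (x : ℝ) :
    HasDerivAt (wavg g) (2 * (g (2 * x) - g (2 * x - 1))) x := by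
  have h : wavg g = fun x => (∫ v in (0:ℝ)..(2 * x), g v) - ∫ v in (0:ℝ)..(2 * x - 1), g v := by
    funext x; exact wavg_eq_sub hg x
  rw [h]
  have hF : ∀ y : ℝ, HasDerivAt (fun y => ∫ v in (0:ℝ)..y, g v) (g y) y := fun y =>
    intervalIntegral.integral_hasDerivAt_right (hg.intervalIntegrable _ _)
      hg.stronglyMeasurable.stronglyMeasurableAtFilter hg.continuousAt
  have h1 : HasDerivAt (fun x : ℝ => 2 * x) 2 x := by
    simpa using (hasDerivAt_id x).const_mul 2
  have h2 : HasDerivAt (fun x : ℝ => 2 * x - 1) 2 x := h1.sub_const 1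
  have h3 := ((hF (2 * x)).comp x h1).sub ((hF (2 * x - 1)).comp x h2)
  refine h3.congr_deriv ?_
  ring

theorem StepLike.wavg {g : ℝ → ℝ} (h : StepLike g) : StepLike (wavg g) where
  cont := continuous_wavg h.cont
  zero := by
    intro x hx
    rw [wavg_eq]
    have : ∀ u ∈ Set.uIcc (0:ℝ) 1, g (2 * x - u) = (fun _ => (0:ℝ)) u := by
      intro u hu
      rw [Set.uIcc_of_le zero_le_one] at hu
      exact h.zero _ (by linarith [hu.1])
    rw [intervalIntegral.integral_congr this]
    simp
  one := by
    intro x hx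
    rw [wavg_eq]
    have : ∀ u ∈ Set.uIcc (0:ℝ) 1, g (2 * x - u) = (fun _ => (1:ℝ)) u := by
      intro u hu
      rw [Set.uIcc_of_le zero_le_one] at hu
      exact h.one _ (by linarith [hu.2])
    rw [intervalIntegral.integral_congr this]
    simp
  symm := by
    intro x
    have h1 : Crest.Agent.R126.wavg g (1 - x) = ∫ v in (2 * x - 1)..(2 * x), g (1 - v) := by
      rw [intervalIntegral.integral_comp_sub_left]
      unfold Crest.Agent.R126.wavg
      congr 1 <;> ring
    rw [h1]
    unfold Crest.Agent.R126.wavg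
    have hc := h.cont
    have hc' : Continuous (fun v => g (1 - v)) := by fun_prop
    rw [← intervalIntegral.integral_add (hc.intervalIntegrable _ _) (hc'.intervalIntegrable _ _)]
    simp [h.symm]
  mono := by
    intro x y hxy
    rw [wavg_eq, wavg_eq]
    apply intervalIntegral.integral_mono zero_le_one
    · exact (h.cont.comp (by fun_prop)).intervalIntegrable _ _
    · exact (h.cont.comp (by fun_prop)).intervalIntegrable _ _
    · intro u
      exact h.mono (by linarith)

theorem StepLike.nonneg {g : ℝ → ℝ} (h : StepLike g) (x : ℝ) : 0 ≤ g x := by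
  rcases le_total x 0 with hx | hx
  · rw [h.zero x hx]
  · rw [← h.zero 0 le_rfl]; exact h.mono hx

theorem StepLike.le_one {g : ℝ → ℝ} (h : StepLike g) (x : ℝ) : g x ≤ 1 := by
  rcases le_total x 1 with hx | hx
  · rw [← h.one 1 le_rfl]; exact h.mono hx
  · rw [h.one x hx]

theorem total_zero {d : ℝ → ℝ} (hd : Continuous d) (hs : ∀ x, d x + d (1 - x) = 0) :
    ∫ v in (0:ℝ)..1, d v = 0 := by
  have e1 : ∫ v in (0:ℝ)..1, d (1 - v) = ∫ v in (0:ℝ)..1, d v := by
    rw [intervalIntegral.integral_comp_sub_left]; simp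
  have e2 : ∫ v in (0:ℝ)..1, (d v + d (1 - v)) = 0 := by simp [hs]
  have hd' : Continuous (fun v => d (1 - v)) := by fun_prop
  rw [intervalIntegral.integral_add (hd.intervalIntegrable _ _) (hd'.intervalIntegrable _ _), e1] at e2
  linarith

theorem prim_bound {d : ℝ → ℝ} (hd : Continuous d) (h0 : ∀ x, x ≤ 0 → d x = 0) (h1 : ∀ x, 1 ≤ x → d x = 0)
    (hs : ∀ x, d x + d (1 - x) = 0) {D : ℝ} (hD : ∀ x, |d x| ≤ D) (y : ℝ) :
    |∫ v in (0:ℝ)..y, d v| ≤ D / 2 := by
  have hD0 : 0 ≤ D := (abs_nonneg _).trans (hD 0)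
  have hint : ∀ a b, IntervalIntegrable d volume a b := fun a b => hd.intervalIntegrable a b
  have htot : ∫ v in (0:ℝ)..1, d v = 0 := total_zero hd hs
  have habs : ∀ a b : ℝ, |∫ v in a..b, d v| ≤ D * |b - a| := fun a b => by
    have := intervalIntegral.norm_integral_le_of_norm_le_const (a := a) (b := b) (f := d) (C := D)
      (fun x _ => by rw [Real.norm_eq_abs]; exact hD x)
    rwa [Real.norm_eq_abs] at this
  rcases le_total y 0 with hy | hy
  · have : ∫ v in (0:ℝ)..y, d v = 0 := by
      rw [intervalIntegral.integral_congr (g := fun _ => (0:ℝ))]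
      · simp
      · intro v hv
        rw [Set.uIcc_of_ge hy] at hv
        exact h0 v hv.2
    rw [this]; simp; linarith
  rcases le_total 1 y with hy1 | hy1
  · have : ∫ v in (1:ℝ)..y, d v = 0 := by
      rw [intervalIntegral.integral_congr (g := fun _ => (0:ℝ))]
      · simp
      · intro v hv
        rw [Set.uIcc_of_le hy1] at hv
        exact h1 v hv.1
    rw [← intervalIntegral.integral_add_adjacent_intervals (hint 0 1) (hint 1 y), htot, this]; simp; linarith
  rcases le_total y (1/2) with hy2 | hy2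
  · have := habs 0 y
    rw [sub_zero, abs_of_nonneg hy] at this
    nlinarith
  · have := habs y 1
    have e : ∫ v in (0:ℝ)..y, d v = - ∫ v in y..1, d v := by
      have := intervalIntegral.integral_add_adjacent_intervals (hint 0 y) (hint y 1)
      linarith
    rw [e, abs_neg]
    rw [abs_of_nonneg (by linarith : 0 ≤ 1 - y)] at this
    nlinarith

theorem wavg_contract {g g' : ℝ → ℝ} (h : StepLike g) (h' : StepLike g') {D : ℝ} (hD : ∀ x, |g x - g' x| ≤ D) (x : ℝ) :
    |wavg g x - wavg g' x| ≤ D / 2 := by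
  set d : ℝ → ℝ := fun x => g x - g' x with hd
  have hdc : Continuous d := h.cont.sub h'.cont
  have h0 : ∀ x, x ≤ 0 → d x = 0 := fun x hx => by simp [hd, h.zero x hx, h'.zero x hx]
  have h1 : ∀ x, 1 ≤ x → d x = 0 := fun x hx => by simp [hd, h.one x hx, h'.one x hx]
  have hs : ∀ x, d x + d (1 - x) = 0 := fun x => by
    have a := h.symm x
    have b := h'.symm x
    simp only [hd]
    linarith
  have e : wavg g x - wavg g' x = wavg d x := by
    unfold wavg
    rw [← intervalIntegral.integral_sub (h.cont.intervalIntegrable _ _) (h'.cont.intervalIntegrable _ _)]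
  have hb := prim_bound hdc h0 h1 hs hD
  rw [e, wavg_eq_sub hdc]
  rcases le_total (2 * x) 1 with hx | hx
  · have : ∫ v in (0:ℝ)..(2 * x - 1), d v = 0 := by
      rw [intervalIntegral.integral_congr (g := fun _ => (0:ℝ))]
      · simp
      · intro v hv
        rw [Set.uIcc_of_ge (by linarith)] at hv
        exact h0 v hv.2
    rw [this, sub_zero]
    exact hb _
  · have h2 : ∫ v in (1:ℝ)..(2 * x), d v = 0 := by
      rw [intervalIntegral.integral_congr (g := fun _ => (0:ℝ))]
      · simp
      · intro v hv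
        rw [Set.uIcc_of_le hx] at hv
        exact h1 v hv.1
    have hint : ∀ a b, IntervalIntegrable d volume a b := fun a b => hdc.intervalIntegrable a b
    have htot : ∫ v in (0:ℝ)..1, d v = 0 := total_zero hdc hs
    rw [← intervalIntegral.integral_add_adjacent_intervals (hint 0 1) (hint 1 _), htot, h2]
    simp only [add_zero, zero_sub, abs_neg]
    exact hb _


open BoundedContinuousFunction in
theorem exists_fixed : ∃ S : ℝ → ℝ, StepLike S ∧ ∀ x, wavg S x = S x := by
  classical
  set s : Set (ℝ →ᵇ ℝ) := {g | StepLike g} with hs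
  let Tg : (ℝ →ᵇ ℝ) → (ℝ →ᵇ ℝ) := fun g =>
    BoundedContinuousFunction.ofNormedAddCommGroup (wavg g) (continuous_wavg g.continuous) ‖g‖ (by
      intro x
      have := intervalIntegral.norm_integral_le_of_norm_le_const (a := 2 * x - 1) (b := 2 * x) (f := g) (C := ‖g‖)
        (fun y _ => g.norm_coe_le_norm y)
      simpa [wavg] using this)
  have hTg : ∀ g x, Tg g x = wavg g x := fun g x => rfl
  have hclosed : IsClosed s := by
    have : s = {g | (∀ x, x ≤ 0 → g x = 0)} ∩ {g | (∀ x, 1 ≤ x → g x = 1)} ∩ {g | ∀ x, g x + g (1 - x) = 1}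
        ∩ {g | ∀ x y, x ≤ y → g x ≤ g y} := by
      ext g
      constructor
      · intro h
        exact ⟨⟨⟨h.zero, h.one⟩, h.symm⟩, fun x y hxy => h.mono hxy⟩
      · rintro ⟨⟨⟨h1, h2⟩, h3⟩, h4⟩
        exact ⟨g.continuous, h1, h2, h3, fun x y hxy => h4 x y hxy⟩
    rw [this]
    have hev : ∀ x : ℝ, Continuous fun g : ℝ →ᵇ ℝ => g x := fun x =>
      continuous_eval_const x
    refine ((IsClosed.inter ?_ ?_).inter ?_).inter ?_
    · simp only [Set.ofPred_forall]
      exact isClosed_iInter fun x => isClosed_iInter fun _ => isClosed_eq (hev x) continuous_const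
    · simp only [Set.ofPred_forall]
      exact isClosed_iInter fun x => isClosed_iInter fun _ => isClosed_eq (hev x) continuous_const
    · simp only [Set.ofPred_forall]
      exact isClosed_iInter fun x => isClosed_eq ((hev x).add (hev _)) continuous_const
    · simp only [Set.ofPred_forall]
      exact isClosed_iInter fun x => isClosed_iInter fun y => isClosed_iInter fun _ => isClosed_le (hev x) (hev y)
  have hmaps : Set.MapsTo Tg s s := by
    intro g hg
    exact StepLike.wavg hg
  have hcontr : ContractingWith (1/2) (hmaps.restrict Tg s s) := by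
    refine ⟨by norm_num, ?_⟩
    refine LipschitzWith.of_dist_le_mul fun g g' => ?_
    change dist (Tg g) (Tg g') ≤ _
    rw [BoundedContinuousFunction.dist_le (by positivity)]
    intro x
    rw [Real.dist_eq, hTg, hTg]
    refine (wavg_contract g.2 g'.2 (D := dist g g') ?_ x).trans ?_
    · intro y
      have := BoundedContinuousFunction.dist_coe_le_dist (f := (g : ℝ →ᵇ ℝ)) (g := (g' : ℝ →ᵇ ℝ)) y
      rwa [Real.dist_eq] at this
    · norm_num
      linarith
  -- a starting point: the clamp
  let g0 : ℝ →ᵇ ℝ := BoundedContinuousFunction.ofNormedAddCommGroup (fun x : ℝ => max 0 (min x 1)) (by fun_prop) 1 (by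
    intro x
    rw [Real.norm_eq_abs, abs_of_nonneg (le_max_left _ _)]
    exact max_le zero_le_one (min_le_right _ _))
  have hg0 : g0 ∈ s := by
    have e : ∀ x, g0 x = max 0 (min x 1) := fun x => rfl
    refine ⟨g0.continuous, ?_, ?_, ?_, ?_⟩
    · intro x hx; rw [e, max_eq_left]; exact (min_le_left _ _).trans hx
    · intro x hx; rw [e, min_eq_right hx]; simp
    · intro x
      rw [e, e]
      rcases le_total x 0 with hx | hx
      · rw [max_eq_left ((min_le_left _ _).trans hx), min_eq_right (by linarith : (1:ℝ) ≤ 1 - x)]; simp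
      rcases le_total x 1 with hx1 | hx1
      · rw [min_eq_left hx1, max_eq_right hx, min_eq_left (by linarith : 1 - x ≤ 1), max_eq_right (by linarith)]; ring
      · rw [min_eq_right hx1, max_eq_left ((min_le_left _ _).trans (by linarith) : min (1 - x) 1 ≤ 0)]; simp
    · intro x y hxy
      rw [e, e]
      exact max_le_max le_rfl (min_le_min hxy le_rfl)
  obtain ⟨S, hS, hfix, -⟩ := hcontr.exists_fixedPoint' hclosed.isComplete hmaps hg0 (edist_ne_top _ _)
  refine ⟨S, hS, fun x => ?_⟩
  have : Tg S = S := hfix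
  rw [← hTg, this]

theorem exists_step : ∃ S : ℝ → ℝ, (∀ x, x ≤ 0 → S x = 0) ∧ (∀ x, 1 ≤ x → S x = 1) ∧ Monotone S ∧
    ∀ x, HasDerivAt S (2 * (S (2 * x) - S (2 * x - 1))) x := by
  obtain ⟨S, hS, hfix⟩ := exists_fixed
  refine ⟨S, hS.zero, hS.one, hS.mono, fun x => ?_⟩
  have h := hasDerivAt_wavg hS.cont x
  have e : wavg S = S := funext hfix
  rwa [e] at h


/-- The smooth step: `0` on `(-∞,0]`, `1` on `[1,∞)`. -/
noncomputable def stp : ℝ → ℝ := Classical.choose exists_step

theorem stp_of_nonpos {x : ℝ} (hx : x ≤ 0) : stp x = 0 := (Classical.choose_spec exists_step).1 x hx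
theorem stp_of_one_le {x : ℝ} (hx : 1 ≤ x) : stp x = 1 := (Classical.choose_spec exists_step).2.1 x hx
theorem stp_mono : Monotone stp := (Classical.choose_spec exists_step).2.2.1
theorem stp_hasDerivAt (x : ℝ) : HasDerivAt stp (2 * (stp (2 * x) - stp (2 * x - 1))) x :=
  (Classical.choose_spec exists_step).2.2.2 x

theorem stp_nonneg (x : ℝ) : 0 ≤ stp x := by
  rcases le_total x 0 with hx | hx
  · rw [stp_of_nonpos hx]
  · rw [← stp_of_nonpos le_rfl]; exact stp_mono hx

theorem stp_le_one (x : ℝ) : stp x ≤ 1 := by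
  rcases le_total x 1 with hx | hx
  · rw [← stp_of_one_le le_rfl]; exact stp_mono hx
  · rw [stp_of_one_le hx]

theorem stp_continuous : Continuous stp :=
  continuous_iff_continuousAt.2 fun x => (stp_hasDerivAt x).continuousAt

theorem deriv_stp : deriv stp = fun x => 2 * (stp (2 * x) - stp (2 * x - 1)) :=
  funext fun x => (stp_hasDerivAt x).deriv

theorem stp_contDiff : ContDiff ℝ ∞ stp := by
  rw [contDiff_infty]
  intro n
  induction n with
  | zero => 
    rw [Nat.cast_zero, contDiff_zero]
    exact stp_continuous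
  | succ n ih =>
    rw [Nat.cast_succ, contDiff_succ_iff_deriv]
    refine ⟨fun x => (stp_hasDerivAt x).differentiableAt, by simp, ?_⟩
    rw [deriv_stp]
    have h1 : ContDiff ℝ n (fun x : ℝ => stp (2 * x)) := ih.comp (contDiff_const.mul contDiff_id)
    have h2 : ContDiff ℝ n (fun x : ℝ => stp (2 * x - 1)) :=
      ih.comp ((contDiff_const.mul contDiff_id).sub contDiff_const)
    exact contDiff_const.mul (h1.sub h2)

/-- `stp` is 2-Lipschitz. -/
theorem stp_lip (x y : ℝ) : |stp x - stp y| ≤ 2 * |x - y| := by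
  have h := Convex.norm_image_sub_le_of_norm_deriv_le (𝕜 := ℝ) (f := stp) (C := 2) (s := Set.univ) (x := y) (y := x)
    (fun z _ => (stp_hasDerivAt z).differentiableAt) (fun z _ => by
      rw [deriv_stp, Real.norm_eq_abs, abs_le]
      have a1 := stp_nonneg (2 * z)
      have a2 := stp_le_one (2 * z)
      have b1 := stp_nonneg (2 * z - 1)
      have b2 := stp_le_one (2 * z - 1)
      constructor <;> linarith) convex_univ (Set.mem_univ _) (Set.mem_univ _)
  simpa [Real.norm_eq_abs] using h

theorem wavg_stp (x : ℝ) : wavg stp x = stp x := by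
  have hd : ∀ z, HasDerivAt (fun z => wavg stp z - stp z) 0 z := fun z => by
    have := (hasDerivAt_wavg stp_continuous z).sub (stp_hasDerivAt z)
    rwa [sub_self] at this
  have hc := is_const_of_deriv_eq_zero (f := fun z => wavg stp z - stp z)
    (fun z => (hd z).differentiableAt) (fun z => (hd z).deriv) x 0
  have h0 : wavg stp 0 = 0 := by
    unfold wavg
    rw [intervalIntegral.integral_congr (g := fun _ => (0:ℝ))]
    · simp
    · intro v hv
      rw [Set.uIcc_of_le (by norm_num)] at hv
      exact stp_of_nonpos (by simpa using hv.2)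
  have h1 : stp 0 = 0 := stp_of_nonpos le_rfl
  simp only [h0, h1, sub_zero] at hc
  linarith

/-- From the derivative equation and `stp 0 = 0`. -/
theorem stp_integral (x : ℝ) : stp x = ∫ u in (0 : ℝ)..1, stp (2 * x - u) := by
  rw [← wavg_eq, wavg_stp]

theorem stp_integral_scaled (M : ℕ) (hM : 0 < M) (x : ℝ) :
    stp x = (∫ v in (0 : ℝ)..(0 + (M : ℝ)), stp (2 * x - v / M)) / M := by
  have hM' : (M : ℝ) ≠ 0 := by positivity
  rw [intervalIntegral.integral_comp_div (fun u => stp (2 * x - u)) hM', zero_add, zero_div, div_self hM',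
    smul_eq_mul, mul_div_cancel_left₀ _ hM', ← stp_integral]

theorem antitone_shift (M : ℕ) (x : ℝ) (s : Set ℝ) : AntitoneOn (fun v : ℝ => stp (2 * x - v / M)) s := by
  intro a _ b _ hab
  apply stp_mono
  have : a / (M : ℝ) ≤ b / M := div_le_div_of_nonneg_right hab (Nat.cast_nonneg _)
  linarith

/-- Monotone Riemann sandwich. -/
theorem stp_le_riemann (M : ℕ) (hM : 0 < M) (x : ℝ) :
    stp x ≤ (∑ m ∈ Finset.range M, stp (2 * x - m / M)) / M := by
  rw [stp_integral_scaled M hM x]
  apply div_le_div_of_nonneg_right _ (Nat.cast_nonneg _)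
  refine (AntitoneOn.integral_le_sum (antitone_shift M x _)).trans (le_of_eq ?_)
  simp

theorem riemann_le_stp (M : ℕ) (hM : 0 < M) (x : ℝ) :
    (∑ m ∈ Finset.range M, stp (2 * x - (m + 1) / M)) / M ≤ stp x := by
  conv_rhs => rw [stp_integral_scaled M hM x]
  apply div_le_div_of_nonneg_right _ (Nat.cast_nonneg _)
  refine (le_of_eq ?_).trans (AntitoneOn.sum_le_integral (antitone_shift M x _))
  simp

end Crest.Agent.R126
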