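/- R126 (S0170): computability of the smooth step function and its derivatives. -/
import Mathlib
import Crest.Agent.Lib.RatPrimrec
import Crest.Agent.R126.Step

set_option autoImplicit false
open scoped ContDiff

namespace Crest.Agent.R126

/-! ### list sums -/

theorem sum_map_flatMap {α β : Type*} (l : List α) (f : α → List β) (g : β → ℝ) :
    ((l.flatMap f).map g).sum = (l.map fun a => ((f a).map g).sum).sum := by
  induction l with
  | nil => simp
  | cons a l ih => simp [List.flatMap_cons, ih]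

theorem sum_map_range (M : ℕ) (g : ℕ → ℝ) :
    ((List.range M).map g).sum = ∑ m ∈ Finset.range M, g m := by
  induction M with
  | zero => simp
  | succ n ih => rw [List.range_succ, Finset.sum_range_succ]; simp [ih]

theorem sum_map_le {α : Type*} (l : List α) (f g : α → ℝ) (h : ∀ a, f a ≤ g a) :
    (l.map f).sum ≤ (l.map g).sum := by
  induction l with
  | nil => simp
  | cons a l ih => simpa using add_le_add (h a) ih

theorem sum_map_mul_left {α : Type*} (l : List α) (c : ℝ) (f : α → ℝ) :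
    (l.map fun a => c * f a).sum = c * (l.map f).sum := by
  induction l with
  | nil => simp
  | cons a l ih => simp [ih, mul_add]

/-! ### approximating `stp` -/

/-- sample points of the `k`-fold Riemann iteration with mesh `1/M`. -/
def pts (M : ℕ) (q : ℚ) : ℕ → List ℚ
  | 0 => [q]
  | k + 1 => (pts M q k).flatMap fun y => (List.range M).map fun m : ℕ => 2 * y - (m : ℚ) / (M : ℚ)

/-- rational approximation of `stp q` (with mesh `1/(N+1)` and `N` iterations). -/
def apx (q : ℚ) (N : ℕ) : ℚ :=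
  (((pts (N + 1) q N).filter fun y => 0 ≤ y).length : ℚ) / ((N + 1 : ℕ) : ℚ) ^ N

theorem filter_length_cast (l : List ℚ) :
    (((l.filter fun y => 0 ≤ y).length : ℕ) : ℝ) = (l.map fun y : ℚ => if 0 ≤ y then (1 : ℝ) else 0).sum := by
  induction l with
  | nil => simp
  | cons a l ih =>
    by_cases h : 0 ≤ a
    · simp [h, ← ih]; ring
    · simp [h, ← ih]

theorem pts_upper (M : ℕ) (hM : 0 < M) (q : ℚ) (k : ℕ) :
    (M : ℝ) ^ k * stp (q : ℝ) ≤ ((pts M q k).map fun y : ℚ => stp (y : ℝ)).sum := by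
  have hM' : (0 : ℝ) < M := by exact_mod_cast hM
  induction k with
  | zero => simp [pts]
  | succ k ih =>
    rw [pts, sum_map_flatMap]
    have h1 : ∀ y : ℚ, (M : ℝ) * stp (y : ℝ) ≤
        (((List.range M).map fun m : ℕ => 2 * y - (m : ℚ) / (M : ℚ)).map fun y : ℚ => stp (y : ℝ)).sum := by
      intro y
      rw [List.map_map, sum_map_range]
      have := stp_le_riemann M hM (y : ℝ)
      rw [le_div_iff₀ hM'] at this
      refine le_trans (by linarith [mul_comm (M : ℝ) (stp (y : ℝ))]) (le_trans this (le_of_eq ?_))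
      refine Finset.sum_congr rfl fun m _ => ?_
      simp
    refine le_trans ?_ (sum_map_le _ _ _ h1)
    rw [sum_map_mul_left, pow_succ]
    calc (M : ℝ) ^ k * M * stp q = M * (M ^ k * stp q) := by ring
      _ ≤ _ := mul_le_mul_of_nonneg_left ih hM'.le

/-- the shift after `k` steps. -/
noncomputable def shf (M : ℕ) (s : ℝ) : ℕ → ℝ
  | 0 => s
  | k + 1 => 2 * shf M s k - 1 / M

theorem shf_eq (M : ℕ) (s : ℝ) (k : ℕ) : shf M s k = 2 ^ k * (s - 1 / M) + 1 / M := by
  induction k with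
  | zero => simp [shf]
  | succ k ih => rw [shf, ih, pow_succ]; ring

theorem pts_lower (M : ℕ) (hM : 0 < M) (q : ℚ) (s : ℝ) (k : ℕ) :
    ((pts M q k).map fun y : ℚ => stp ((y : ℝ) + shf M s k)).sum ≤ (M : ℝ) ^ k * stp ((q : ℝ) + s) := by
  have hM' : (0 : ℝ) < M := by exact_mod_cast hM
  induction k with
  | zero => simp [pts, shf]
  | succ k ih =>
    rw [pts, sum_map_flatMap]
    have h1 : ∀ y : ℚ, (((List.range M).map fun m : ℕ => 2 * y - (m : ℚ) / (M : ℚ)).map
          fun y : ℚ => stp ((y : ℝ) + shf M s (k + 1))).sum ≤ (M : ℝ) * stp ((y : ℝ) + shf M s k) := by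
      intro y
      rw [List.map_map, sum_map_range]
      have := riemann_le_stp M hM ((y : ℝ) + shf M s k)
      rw [div_le_iff₀ hM'] at this
      refine le_trans (le_of_eq ?_) (le_trans this (by linarith [mul_comm (M : ℝ) (stp ((y : ℝ) + shf M s k))]))
      refine Finset.sum_congr rfl fun m _ => ?_
      simp only [Function.comp, shf]
      push_cast
      congr 1
      field_simp
      ring
    refine le_trans (sum_map_le _ _ _ h1) ?_
    rw [sum_map_mul_left, pow_succ]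
    calc (M : ℝ) * _ ≤ M * (M ^ k * stp (q + s)) := mul_le_mul_of_nonneg_left ih hM'.le
      _ = _ := by ring

/-- `pts (N+1) q N` has `(N+1)^N` entries; sandwich `stp x ≤ apx ≤ stp (x + 2^{-N} + 1/(N+1))`. -/
theorem abs_stp_sub_apx (q : ℚ) (N : ℕ) : |stp (q : ℝ) - (apx q N : ℝ)| ≤ 4 / ((N : ℝ) + 1) := by
  have hM : 0 < N + 1 := Nat.succ_pos N
  have hM' : (0 : ℝ) < ((N + 1 : ℕ) : ℝ) := by exact_mod_cast hM
  have hMN : (0 : ℝ) < ((N + 1 : ℕ) : ℝ) ^ N := pow_pos hM' N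
  have hcast : (apx q N : ℝ) = ((pts (N + 1) q N).map fun y : ℚ => if 0 ≤ y then (1 : ℝ) else 0).sum /
      ((N + 1 : ℕ) : ℝ) ^ N := by
    rw [apx, ← filter_length_cast]; push_cast; rfl
  have hup : stp (q : ℝ) ≤ apx q N := by
    rw [hcast, le_div_iff₀ hMN, mul_comm]
    refine le_trans (pts_upper (N + 1) hM q N) (sum_map_le _ _ _ fun y => ?_)
    split_ifs with h
    · exact stp_le_one _
    · exact le_of_eq (stp_of_nonpos (by exact_mod_cast (not_le.mp h).le))
  set s : ℝ := 1 / ((N + 1 : ℕ) : ℝ) + (1 - 1 / ((N + 1 : ℕ) : ℝ)) / 2 ^ N with hs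
  have hlow : (apx q N : ℝ) ≤ stp ((q : ℝ) + s) := by
    rw [hcast, div_le_iff₀ hMN, mul_comm]
    refine le_trans (sum_map_le _ _ _ fun y => ?_) (pts_lower (N + 1) hM q s N)
    have h1 : shf (N + 1) s N = 1 := by
      rw [shf_eq, hs]; field_simp; ring
    rw [h1]
    split_ifs with h
    · refine le_of_eq (stp_of_one_le ?_).symm
      have : (0 : ℝ) ≤ (y : ℝ) := by exact_mod_cast h
      linarith
    · exact stp_nonneg _
  have hpow : (((N + 1 : ℕ)) : ℝ) ≤ 2 ^ N := by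
    have : N + 1 ≤ 2 ^ N := Nat.lt_two_pow_self
    exact_mod_cast this
  have hs0 : 0 ≤ s := by
    have : 1 / ((N + 1 : ℕ) : ℝ) ≤ 1 := by
      rw [div_le_one hM']; exact_mod_cast hM
    have h2 : 0 ≤ 1 / ((N + 1 : ℕ) : ℝ) := by positivity
    have h3 : 0 ≤ (1 - 1 / ((N + 1 : ℕ) : ℝ)) / 2 ^ N := div_nonneg (by linarith) (by positivity)
    linarith
  have hs1 : s ≤ 2 / ((N + 1 : ℕ) : ℝ) := by
    have h3 : (1 - 1 / ((N + 1 : ℕ) : ℝ)) / 2 ^ N ≤ 1 / ((N + 1 : ℕ) : ℝ) := by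
      have h2 : 0 ≤ 1 / ((N + 1 : ℕ) : ℝ) := by positivity
      exact div_le_div₀ zero_le_one (by linarith) hM' hpow
    have : (2 : ℝ) / ((N + 1 : ℕ) : ℝ) = 1 / ((N + 1 : ℕ) : ℝ) + 1 / ((N + 1 : ℕ) : ℝ) := by ring
    rw [hs, this]
    linarith
  have hl := stp_lip ((q : ℝ) + s) q
  have hl2 : |stp ((q : ℝ) + s) - stp q| ≤ 2 * s := by
    simpa [abs_of_nonneg hs0] using hl
  have hl3 := (abs_le.mp hl2).2
  rw [abs_le]
  have h4 : (4 : ℝ) / ((N : ℝ) + 1) = 2 * (2 / ((N + 1 : ℕ) : ℝ)) := by push_cast; ring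
  have h5 : 0 ≤ (4 : ℝ) / ((N : ℝ) + 1) := by positivity
  constructor
  · linarith
  · linarith

open Crest.Agent.Lib.RatPrimrec in
theorem primrec_pts : Primrec (fun a : (ℕ × ℚ) × ℕ => pts a.1.1 a.1.2 a.2) := by
  have h : Primrec (fun a : (ℕ × ℚ) × ℕ => (Nat.rec [a.1.2]
      (fun _ (l : List ℚ) => l.flatMap fun y => (List.range a.1.1).map fun m : ℕ => 2 * y - (m : ℚ) / (a.1.1 : ℚ))
      a.2 : List ℚ)) := by
    refine Primrec.nat_rec' (f := fun a : (ℕ × ℚ) × ℕ => a.2) (g := fun a : (ℕ × ℚ) × ℕ => [a.1.2])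
      (h := fun (a : (ℕ × ℚ) × ℕ) (p : ℕ × List ℚ) =>
        p.2.flatMap fun y => (List.range a.1.1).map fun m : ℕ => 2 * y - (m : ℚ) / (a.1.1 : ℚ)) ?_ ?_ ?_
    · exact Primrec.snd
    · exact Primrec.list_cons.comp (Primrec.snd.comp Primrec.fst) (Primrec.const [])
    · refine Primrec.list_flatMap (Primrec.snd.comp Primrec.snd) ?_
      refine Primrec.list_map (f := fun z : (((ℕ × ℚ) × ℕ) × ℕ × List ℚ) × ℚ => List.range z.1.1.1.1)
        (g := fun z m => 2 * z.2 - (m : ℚ) / (z.1.1.1.1 : ℚ)) ?_ ?_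
      · exact Primrec.list_range.comp (Primrec.fst.comp (Primrec.fst.comp (Primrec.fst.comp Primrec.fst)))
      · refine rat_sub.comp ?_ ?_
        · exact rat_mul.comp (Primrec.const 2) (Primrec.snd.comp Primrec.fst)
        · refine rat_div.comp (rat_natCast.comp Primrec.snd) (rat_natCast.comp ?_)
          exact Primrec.fst.comp (Primrec.fst.comp (Primrec.fst.comp (Primrec.fst.comp Primrec.fst)))
  refine h.of_eq ?_
  rintro ⟨⟨M, q⟩, k⟩
  induction k with
  | zero => rfl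
  | succ k ih =>
    simp only [pts] at ih ⊢
    rw [← ih]

open Crest.Agent.Lib.RatPrimrec in
theorem primrec_apx : Primrec₂ apx := by
  unfold Primrec₂ apx
  refine rat_div.comp ?_ ?_
  · refine rat_natCast.comp (Primrec.list_length.comp ?_)
    have h1 : PrimrecPred (fun y : ℚ => (0 : ℚ) ≤ y) := rat_le.comp (Primrec.const 0) Primrec.id
    refine (Primrec.listFilter h1).comp ?_
    exact primrec_pts.comp (Primrec.pair (Primrec.pair (Primrec.succ.comp Primrec.snd) Primrec.fst) Primrec.snd)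
  · exact rat_pow.comp (rat_natCast.comp (Primrec.succ.comp Primrec.snd)) Primrec.snd

/-! ### derivatives -/

/-- coefficient/shift list of the `k`-th derivative: `stp^{(k)}(x) = ∑ (c,b) ∈ dl k, c * stp (2^k x + b)`. -/
def dl : ℕ → List (ℚ × ℚ)
  | 0 => [(1, 0)]
  | k + 1 => (dl k).flatMap fun p => [(2 ^ (k + 1) * p.1, 2 * p.2), (-(2 ^ (k + 1) * p.1), 2 * p.2 - 1)]

theorem hasDerivAt_list_sum {α : Type*} (l : List α) (f f' : α → ℝ → ℝ) (x : ℝ)
    (h : ∀ a, HasDerivAt (f a) (f' a x) x) :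
    HasDerivAt (fun x => (l.map fun a => f a x).sum) (l.map fun a => f' a x).sum x := by
  induction l with
  | nil => simpa using hasDerivAt_const x (0 : ℝ)
  | cons a l ih =>
    simp only [List.map_cons, List.sum_cons]
    exact (h a).add ih

theorem iteratedDeriv_stp (k : ℕ) (x : ℝ) :
    iteratedDeriv k stp x = ((dl k).map fun p : ℚ × ℚ => (p.1 : ℝ) * stp (2 ^ k * x + (p.2 : ℝ))).sum := by
  induction k generalizing x with
  | zero => simp [dl]
  | succ k ih =>
    rw [iteratedDeriv_succ]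
    have h1 : iteratedDeriv k stp = fun x =>
        ((dl k).map fun p : ℚ × ℚ => (p.1 : ℝ) * stp (2 ^ k * x + (p.2 : ℝ))).sum := funext ih
    rw [h1]
    have h2 := hasDerivAt_list_sum (dl k) (fun p x => (p.1 : ℝ) * stp (2 ^ k * x + (p.2 : ℝ)))
      (fun p x => (p.1 : ℝ) * ((2 * (stp (2 * (2 ^ k * x + (p.2 : ℝ))) -
        stp (2 * (2 ^ k * x + (p.2 : ℝ)) - 1))) * 2 ^ k)) x (by
        intro p
        refine HasDerivAt.const_mul _ ?_
        have h3 : HasDerivAt (fun x : ℝ => 2 ^ k * x + (p.2 : ℝ)) (2 ^ k) x := by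
          simpa using ((hasDerivAt_id x).const_mul (2 ^ k : ℝ)).add_const (p.2 : ℝ)
        exact (stp_hasDerivAt (2 ^ k * x + (p.2 : ℝ))).comp x h3)
    rw [h2.deriv, dl, sum_map_flatMap]
    congr 1
    refine List.map_congr_left fun p _ => ?_
    simp only [List.map_cons, List.map_nil, List.sum_cons, List.sum_nil]
    push_cast
    have e1 : (2 : ℝ) ^ (k + 1) * x + 2 * (p.2 : ℝ) = 2 * (2 ^ k * x + (p.2 : ℝ)) := by ring
    have e2 : (2 : ℝ) ^ (k + 1) * x + (2 * (p.2 : ℝ) - 1) = 2 * (2 ^ k * x + (p.2 : ℝ)) - 1 := by ring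
    rw [e1, e2]
    ring

open Crest.Agent.Lib.RatPrimrec in
theorem primrec_dl : Primrec dl := by
  have h : Primrec (fun k : ℕ => (Nat.rec [((1 : ℚ), (0 : ℚ))]
      (fun k (l : List (ℚ × ℚ)) => l.flatMap fun p =>
        [(2 ^ (k + 1) * p.1, 2 * p.2), (-(2 ^ (k + 1) * p.1), 2 * p.2 - 1)]) k : List (ℚ × ℚ))) := by
    refine Primrec.nat_rec' (f := fun k : ℕ => k) (g := fun _ : ℕ => [((1 : ℚ), (0 : ℚ))])
      (h := fun (_ : ℕ) (p : ℕ × List (ℚ × ℚ)) => p.2.flatMap fun z : ℚ × ℚ =>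
        [(2 ^ (p.1 + 1) * z.1, 2 * z.2), (-(2 ^ (p.1 + 1) * z.1), 2 * z.2 - 1)]) Primrec.id (Primrec.const _) ?_
    refine Primrec.list_flatMap (Primrec.snd.comp Primrec.snd) ?_
    have hk : Primrec (fun a : (ℕ × ℕ × List (ℚ × ℚ)) × ℚ × ℚ => a.1.2.1) :=
      Primrec.fst.comp (Primrec.snd.comp Primrec.fst)
    have h1 : Primrec (fun a : (ℕ × ℕ × List (ℚ × ℚ)) × ℚ × ℚ => (2 : ℚ) ^ (a.1.2.1 + 1) * a.2.1) :=
      rat_mul.comp (rat_pow.comp (Primrec.const 2) (Primrec.succ.comp hk)) (Primrec.fst.comp Primrec.snd)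
    have h2 : Primrec (fun a : (ℕ × ℕ × List (ℚ × ℚ)) × ℚ × ℚ => 2 * a.2.2) :=
      rat_mul.comp (Primrec.const 2) (Primrec.snd.comp Primrec.snd)
    exact Primrec.list_cons.comp (Primrec.pair h1 h2)
      (Primrec.list_cons.comp (Primrec.pair (rat_neg.comp h1) (rat_sub.comp h2 (Primrec.const 1)))
        (Primrec.const []))
  refine h.of_eq ?_
  intro k
  induction k with
  | zero => rfl
  | succ k ih =>
    simp only [dl] at ih ⊢
    rw [← ih]

/-- total coefficient mass -/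
theorem sum_abs_dl (k : ℕ) : ((dl k).map fun p : ℚ × ℚ => |(p.1 : ℝ)|).sum ≤ ((2 ^ (k * (k + 3)) : ℕ) : ℝ) := by
  induction k with
  | zero => simp [dl]
  | succ k ih =>
    rw [dl, sum_map_flatMap]
    have h1 : (fun p : ℚ × ℚ => ((([(2 ^ (k + 1) * p.1, 2 * p.2), (-(2 ^ (k + 1) * p.1), 2 * p.2 - 1)] :
        List (ℚ × ℚ)).map fun p : ℚ × ℚ => |(p.1 : ℝ)|).sum)) = fun p : ℚ × ℚ => 2 ^ (k + 2) * |(p.1 : ℝ)| := by
      funext p
      simp only [List.map_cons, List.map_nil, List.sum_cons, List.sum_nil]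
      push_cast
      rw [abs_neg, abs_mul, abs_of_nonneg (by positivity : (0 : ℝ) ≤ 2 ^ (k + 1))]
      ring
    rw [h1, sum_map_mul_left]
    calc (2 : ℝ) ^ (k + 2) * _ ≤ 2 ^ (k + 2) * ((2 ^ (k * (k + 3)) : ℕ) : ℝ) :=
          mul_le_mul_of_nonneg_left ih (by positivity)
      _ = ((2 ^ (k + 2 + k * (k + 3)) : ℕ) : ℝ) := by push_cast; ring
      _ ≤ _ := by
          have : 2 ^ (k + 2 + k * (k + 3)) ≤ 2 ^ ((k + 1) * (k + 1 + 3)) :=
            Nat.pow_le_pow_right (by norm_num) (by nlinarith)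
          exact_mod_cast this

theorem abs_sum_map_le {α : Type*} (l : List α) (f g : α → ℝ) (h : ∀ a, |f a| ≤ g a) :
    |(l.map f).sum| ≤ (l.map g).sum := by
  induction l with
  | nil => simp
  | cons a l ih => simpa using (abs_add_le _ _).trans (add_le_add (h a) ih)

/-- global bound: `|stp^{(k)}| ≤ 2^(k*(k+3)) `. -/
theorem abs_iteratedDeriv_stp_le (k : ℕ) (x : ℝ) : |iteratedDeriv k stp x| ≤ (2 ^ (k * (k + 3)) : ℕ) := by
  rw [iteratedDeriv_stp]
  refine le_trans (abs_sum_map_le _ _ _ fun p => ?_) (sum_abs_dl k)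
  rw [abs_mul, abs_of_nonneg (stp_nonneg _)]
  exact mul_le_of_le_one_right (abs_nonneg _) (stp_le_one _)

theorem sum_map_sub {α : Type*} (l : List α) (f g : α → ℝ) :
    (l.map f).sum - (l.map g).sum = (l.map fun a => f a - g a).sum := by
  induction l with
  | nil => simp
  | cons a l ih => simp [← ih]; ring

/-- approximations of derivatives -/
def dapx (a : ℕ × ℚ) (n : ℕ) : ℚ :=
  ((dl a.1).map fun p : ℚ × ℚ => p.1 * apx (2 ^ a.1 * a.2 + p.2) (4 * (n + 1) * 2 ^ (a.1 * (a.1 + 3)))).sum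

open Crest.Agent.Lib.RatPrimrec in
theorem primrec_nat_pow : Primrec₂ (fun a b : ℕ => a ^ b) := by
  exact Primrec₂.unpaired'.1 Nat.Primrec.pow

open Crest.Agent.Lib.RatPrimrec in
theorem primrec_dapx : Primrec₂ dapx := by
  unfold Primrec₂ dapx
  refine rat_listSum.comp ?_
  refine Primrec.list_map (primrec_dl.comp (Primrec.fst.comp Primrec.fst)) ?_
  have hk : Primrec (fun z : ((ℕ × ℚ) × ℕ) × ℚ × ℚ => z.1.1.1) :=
    Primrec.fst.comp (Primrec.fst.comp Primrec.fst)
  refine rat_mul.comp (Primrec.fst.comp Primrec.snd) (primrec_apx.comp ?_ ?_)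
  · refine rat_add.comp (rat_mul.comp (rat_pow.comp (Primrec.const 2) hk) ?_) (Primrec.snd.comp Primrec.snd)
    exact Primrec.snd.comp (Primrec.fst.comp Primrec.fst)
  · refine Primrec.nat_mul.comp (Primrec.nat_mul.comp (Primrec.const 4)
      (Primrec.succ.comp (Primrec.snd.comp Primrec.fst))) ?_
    refine primrec_nat_pow.comp (Primrec.const 2) (Primrec.nat_mul.comp hk ?_)
    exact Primrec.nat_add.comp hk (Primrec.const 3)

/-- The computability of all derivatives of `stp` at rational points. -/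
theorem stp_computable : ∃ E : ℕ × ℚ → ℕ → ℚ, Computable₂ E ∧
    ∀ a n, |iteratedDeriv a.1 stp (a.2 : ℝ) - (E a n : ℝ)| ≤ 1 / ((n : ℝ) + 1) := by
  refine ⟨dapx, primrec_dapx.to_comp, ?_⟩
  rintro ⟨k, q⟩ n
  set N : ℕ := 4 * (n + 1) * 2 ^ (k * (k + 3)) with hN
  have hcast : ((dapx (k, q) n : ℚ) : ℝ) = ((dl k).map fun p : ℚ × ℚ =>
      (p.1 : ℝ) * (apx (2 ^ k * q + p.2) N : ℝ)).sum := by
    unfold dapx
    rw [Rat.cast_list_sum, List.map_map]
    congr 1
    refine List.map_congr_left fun p _ => ?_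
    simp [hN]
  rw [hcast, iteratedDeriv_stp, sum_map_sub]
  have hb : ∀ p : ℚ × ℚ, |(p.1 : ℝ) * stp (2 ^ k * (q : ℝ) + (p.2 : ℝ)) -
      (p.1 : ℝ) * (apx (2 ^ k * q + p.2) N : ℝ)| ≤ (4 / ((N : ℝ) + 1)) * |(p.1 : ℝ)| := by
    intro p
    rw [← mul_sub, abs_mul, mul_comm]
    refine mul_le_mul_of_nonneg_right ?_ (abs_nonneg _)
    have := abs_stp_sub_apx (2 ^ k * q + p.2) N
    push_cast at this
    exact this
  refine le_trans (abs_sum_map_le _ _ _ hb) ?_
  rw [sum_map_mul_left]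
  have hS := sum_abs_dl k
  set S : ℝ := ((2 ^ (k * (k + 3)) : ℕ) : ℝ) with hSdef
  have hS1 : (0 : ℝ) < S := by rw [hSdef]; positivity
  have hNS : (N : ℝ) = 4 * (n + 1) * S := by rw [hN, hSdef]; push_cast; ring
  have hn : (0 : ℝ) < (n : ℝ) + 1 := by positivity
  calc 4 / ((N : ℝ) + 1) * _ ≤ 4 / ((N : ℝ) + 1) * S := mul_le_mul_of_nonneg_left hS (by positivity)
    _ ≤ 1 / ((n : ℝ) + 1) := by
        rw [div_mul_eq_mul_div, div_le_div_iff₀ (by positivity) hn, hNS]
        nlinarith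

end Crest.Agent.R126
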