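/- R126 (S0170): computable families of reals; effective one-variable functions. -/
import Mathlib
import Crest.Agent.Lib.RatPrimrec
import Crest.Agent.R126.Step
import Crest.Agent.R126.StepComp

set_option autoImplicit false
open scoped ContDiff

namespace Crest.Agent.R126

open Crest.Agent.Lib.RatPrimrec

/-- A family of reals, computably approximable with error `1/(n+1)`. -/
def CompFam {α : Type*} [Primcodable α] (f : α → ℝ) : Prop :=
  ∃ E : α → ℕ → ℚ, Computable₂ E ∧ ∀ a n, |f a - (E a n : ℝ)| ≤ 1 / ((n : ℝ) + 1)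

section
variable {α β : Type*} [Primcodable α] [Primcodable β]

theorem CompFam.congr {f g : α → ℝ} (hf : CompFam f) (h : ∀ a, g a = f a) : CompFam g := by
  have : g = f := funext h
  rwa [this]

theorem CompFam.of_rat {f : α → ℚ} (hf : Computable f) : CompFam (fun a => (f a : ℝ)) := by
  refine ⟨fun a _ => f a, hf.comp Computable.fst, fun a n => ?_⟩
  rw [sub_self, abs_zero]
  positivity

theorem CompFam.comp {f : β → ℝ} {g : α → β} (hf : CompFam f) (hg : Computable g) :
    CompFam (fun a => f (g a)) := by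
  obtain ⟨E, hE, h⟩ := hf
  exact ⟨fun a n => E (g a) n, hE.comp (hg.comp Computable.fst) Computable.snd, fun a n => h _ n⟩

theorem CompFam.add {f g : α → ℝ} (hf : CompFam f) (hg : CompFam g) : CompFam (fun a => f a + g a) := by
  obtain ⟨E, hE, h⟩ := hf
  obtain ⟨E', hE', h'⟩ := hg
  have hn : Primrec (fun p : α × ℕ => 2 * p.2 + 1) :=
    Primrec.succ.comp (Primrec.nat_mul.comp (Primrec.const 2) Primrec.snd)
  refine ⟨fun a n => E a (2 * n + 1) + E' a (2 * n + 1),
    rat_add.to_comp.comp (hE.comp Computable.fst hn.to_comp)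
      (hE'.comp Computable.fst hn.to_comp), fun a n => ?_⟩
  have h1 := h a (2 * n + 1)
  have h2 := h' a (2 * n + 1)
  push_cast at h1 h2 ⊢
  have e : (1 : ℝ) / (2 * n + 1 + 1) + 1 / (2 * n + 1 + 1) = 1 / (n + 1) := by
    field_simp
    ring
  calc |f a + g a - (E a (2 * n + 1) + E' a (2 * n + 1))|
      = |(f a - E a (2 * n + 1)) + (g a - E' a (2 * n + 1))| := by congr 1; ring
    _ ≤ |f a - E a (2 * n + 1)| + |g a - E' a (2 * n + 1)| := abs_add_le _ _
    _ ≤ 1 / (2 * n + 1 + 1) + 1 / (2 * n + 1 + 1) := add_le_add h1 h2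
    _ = 1 / (n + 1) := e

theorem CompFam.neg {f : α → ℝ} (hf : CompFam f) : CompFam (fun a => - f a) := by
  obtain ⟨E, hE, h⟩ := hf
  refine ⟨fun a n => - E a n, rat_neg.to_comp.comp (hE.comp Computable.fst Computable.snd),
    fun a n => ?_⟩
  have := h a n
  rw [abs_sub_comm] at this
  push_cast
  convert this using 2
  ring

theorem CompFam.sub {f g : α → ℝ} (hf : CompFam f) (hg : CompFam g) : CompFam (fun a => f a - g a) :=
  (hf.add hg.neg).congr fun a => by ring

theorem CompFam.mul {f g : α → ℝ} (hf : CompFam f) (hg : CompFam g) : CompFam (fun a => f a * g a) := by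
  obtain ⟨E, hE, h⟩ := hf
  obtain ⟨E', hE', h'⟩ := hg
  -- the precision used
  let N : α × ℕ → ℕ := fun p => (⌊|E p.1 0| + |E' p.1 0|⌋.toNat + 4) * (p.2 + 1)
  have hN : Computable N := by
    have h1 : Computable (fun p : α × ℕ => |E p.1 0|) :=
      rat_abs.to_comp.comp (hE.comp Computable.fst (Computable.const 0))
    have h2 : Computable (fun p : α × ℕ => |E' p.1 0|) :=
      rat_abs.to_comp.comp (hE'.comp Computable.fst (Computable.const 0))
    have h3 : Computable (fun p : α × ℕ => |E p.1 0| + |E' p.1 0|) := rat_add.to_comp.comp h1 h2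
    have h4 : Computable (fun p : α × ℕ => ⌊|E p.1 0| + |E' p.1 0|⌋.toNat) :=
      int_toNat.to_comp.comp (rat_floor.to_comp.comp h3)
    have h5 : Computable (fun p : α × ℕ => ⌊|E p.1 0| + |E' p.1 0|⌋.toNat + 4) :=
      Primrec.nat_add.to_comp.comp h4 (Computable.const 4)
    exact Primrec.nat_mul.to_comp.comp h5 (Primrec.succ.to_comp.comp Computable.snd)
  refine ⟨fun a n => E a (N (a, n)) * E' a (N (a, n)),
    rat_mul.to_comp.comp (hE.comp Computable.fst hN) (hE'.comp Computable.fst hN), fun a n => ?_⟩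
  set m := N (a, n) with hm
  have hf1 : |f a| ≤ |(E a 0 : ℝ)| + 1 := by
    have := h a 0
    simp only [Nat.cast_zero, zero_add, div_one] at this
    have h2 := abs_sub_abs_le_abs_sub (f a) (E a 0 : ℝ)
    linarith
  have hg1 : |g a| ≤ |(E' a 0 : ℝ)| + 1 := by
    have := h' a 0
    simp only [Nat.cast_zero, zero_add, div_one] at this
    have h2 := abs_sub_abs_le_abs_sub (g a) (E' a 0 : ℝ)
    linarith
  have hδ : (0 : ℝ) < (m : ℝ) + 1 := by positivity
  have hδ1 : 1 / ((m : ℝ) + 1) ≤ 1 := by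
    rw [div_le_one hδ]
    linarith [(Nat.cast_nonneg m : (0 : ℝ) ≤ m)]
  have hg2 : |(E' a m : ℝ)| ≤ |(E' a 0 : ℝ)| + 2 := by
    have h3 := h' a m
    rw [abs_sub_comm] at h3
    have h2 := abs_sub_abs_le_abs_sub (E' a m : ℝ) (g a)
    linarith
  have hK : |(E a 0 : ℝ)| + |(E' a 0 : ℝ)| + 3 ≤ ((⌊|E a 0| + |E' a 0|⌋.toNat + 4 : ℕ) : ℝ) := by
    have h1 : |E a 0| + |E' a 0| < ((⌊|E a 0| + |E' a 0|⌋ : ℤ) : ℚ) + 1 := Int.lt_floor_add_one _
    have h2 : ((⌊|E a 0| + |E' a 0|⌋ : ℤ) : ℚ) ≤ ((⌊|E a 0| + |E' a 0|⌋.toNat : ℕ) : ℚ) := by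
      have : (⌊|E a 0| + |E' a 0|⌋ : ℤ) ≤ ((⌊|E a 0| + |E' a 0|⌋.toNat : ℕ) : ℤ) := Int.self_le_toNat _
      exact_mod_cast this
    have h3 : |E a 0| + |E' a 0| + 3 ≤ ((⌊|E a 0| + |E' a 0|⌋.toNat + 4 : ℕ) : ℚ) := by
      push_cast
      linarith
    have h4 : ((|E a 0| + |E' a 0| + 3 : ℚ) : ℝ) ≤
        (((⌊|E a 0| + |E' a 0|⌋.toNat + 4 : ℕ) : ℚ) : ℝ) := by exact_mod_cast h3
    push_cast at h4 ⊢
    linarith
  set K : ℕ := ⌊|E a 0| + |E' a 0|⌋.toNat + 4 with hKdef
  have hmK : (m : ℝ) = K * (n + 1) := by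
    rw [hm]
    simp only [N]
    push_cast [hKdef]
    ring
  have hKpos : (0 : ℝ) < K := by
    have : (0 : ℝ) ≤ |(E a 0 : ℝ)| := abs_nonneg _
    have : (0 : ℝ) ≤ |(E' a 0 : ℝ)| := abs_nonneg _
    linarith
  push_cast
  have e1 : f a * g a - (E a m : ℝ) * (E' a m : ℝ)
      = f a * (g a - E' a m) + E' a m * (f a - E a m) := by ring
  rw [e1]
  calc |f a * (g a - E' a m) + E' a m * (f a - E a m)|
      ≤ |f a * (g a - E' a m)| + |(E' a m : ℝ) * (f a - E a m)| := abs_add_le _ _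
    _ = |f a| * |g a - E' a m| + |(E' a m : ℝ)| * |f a - E a m| := by rw [abs_mul, abs_mul]
    _ ≤ (|(E a 0 : ℝ)| + 1) * (1 / (m + 1)) + (|(E' a 0 : ℝ)| + 2) * (1 / (m + 1)) := by
        gcongr
        · exact h' a m
        · exact h a m
    _ = (|(E a 0 : ℝ)| + |(E' a 0 : ℝ)| + 3) * (1 / (m + 1)) := by ring
    _ ≤ K * (1 / (m + 1)) := by gcongr
    _ ≤ K * (1 / (K * (n + 1))) := by
        apply mul_le_mul_of_nonneg_left _ hKpos.le
        apply one_div_le_one_div_of_le (by positivity)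
        rw [hmK]; linarith
    _ = 1 / (n + 1) := by field_simp

end

/-- A computable real number. -/
def CompReal (c : ℝ) : Prop := CompFam (fun _ : Unit => c)

theorem CompReal.rat (q : ℚ) : CompReal (q : ℝ) :=
  CompFam.of_rat (α := Unit) (Computable.const q)

theorem CompReal.fam {α : Type*} [Primcodable α] {c : ℝ} (h : CompReal c) : CompFam (fun _ : α => c) :=
  CompFam.comp h (Computable.const ())

theorem compReal_log_one_sub (x : ℚ) (h0 : 0 ≤ x) (h1 : x < 1) : CompReal (Real.log (1 - (x : ℝ))) := by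
  have hx0 : (0 : ℝ) ≤ (x : ℝ) := by exact_mod_cast h0
  have hx1 : (x : ℝ) < 1 := by exact_mod_cast h1
  obtain ⟨C, hC⟩ : ∃ C : ℕ, ∀ n : ℕ, (n : ℝ) * (x : ℝ) ^ n / (1 - x) ≤ C := by
    have ht := (tendsto_self_mul_const_pow_of_lt_one hx0 hx1).div_const (1 - (x : ℝ))
    obtain ⟨B, hB⟩ := ht.bddAbove_range
    obtain ⟨C, hC⟩ := exists_nat_ge B
    exact ⟨C, fun n => (hB ⟨n, rfl⟩).trans hC⟩
  refine ⟨fun _ n => -(((List.range (C * (n + 1))).map fun i => x ^ (i + 1) / ((i + 1 : ℕ) : ℚ)).sum),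
    ?_, fun _ n => ?_⟩
  · have h1 : Primrec (fun p : Unit × ℕ => List.range (C * (p.2 + 1))) :=
      Primrec.list_range.comp (Primrec.nat_mul.comp (Primrec.const C)
        (Primrec.succ.comp Primrec.snd))
    have h2 : Primrec₂ (fun (_ : Unit × ℕ) (i : ℕ) => x ^ (i + 1) / ((i + 1 : ℕ) : ℚ)) := by
      have h3 : Primrec (fun q : (Unit × ℕ) × ℕ => x ^ (q.2 + 1)) :=
        rat_pow.comp (Primrec.const x) (Primrec.succ.comp Primrec.snd)
      have h4 : Primrec (fun q : (Unit × ℕ) × ℕ => ((q.2 + 1 : ℕ) : ℚ)) :=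
        rat_natCast.comp (Primrec.succ.comp Primrec.snd)
      exact rat_div.comp h3 h4
    exact (rat_neg.comp (rat_listSum.comp (Primrec.list_map h1 h2))).to_comp
  · have hb := Real.abs_log_sub_add_sum_range_le (x := (x : ℝ)) (by rwa [abs_of_nonneg hx0]) (C * (n + 1))
    rw [abs_of_nonneg hx0] at hb
    have hs : ((-(((List.range (C * (n + 1))).map
        fun i => x ^ (i + 1) / ((i + 1 : ℕ) : ℚ)).sum) : ℚ) : ℝ)
        = - ∑ i ∈ Finset.range (C * (n + 1)), (x : ℝ) ^ (i + 1) / (i + 1) := by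
      rw [← List.sum_toFinset _ (List.nodup_range)]
      push_cast
      congr 1
      apply Finset.sum_congr _ (fun _ _ => rfl)
      ext; simp
    rw [hs, sub_neg_eq_add, add_comm]
    refine hb.trans ?_
    have hpos : (0 : ℝ) < ((C * (n + 1) + 1 : ℕ) : ℝ) := by positivity
    have h2 := hC (C * (n + 1) + 1)
    have h3 : (x : ℝ) ^ (C * (n + 1) + 1) / (1 - x) ≤ C / ((C * (n + 1) + 1 : ℕ) : ℝ) := by
      rw [le_div_iff₀ hpos]
      calc (x : ℝ) ^ (C * (n + 1) + 1) / (1 - x) * ((C * (n + 1) + 1 : ℕ) : ℝ)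
          = ((C * (n + 1) + 1 : ℕ) : ℝ) * (x : ℝ) ^ (C * (n + 1) + 1) / (1 - x) := by ring
        _ ≤ C := h2
    refine h3.trans ?_
    rw [div_le_div_iff₀ hpos (by positivity)]
    push_cast
    nlinarith [(Nat.cast_nonneg C : (0 : ℝ) ≤ C), (Nat.cast_nonneg n : (0 : ℝ) ≤ n)]

theorem CompReal.log (q : ℚ) (hq : 0 < q) : CompReal (Real.log (q : ℝ)) := by
  rcases le_or_gt q 1 with h | h
  · have := compReal_log_one_sub (1 - q) (by linarith) (by linarith)
    push_cast at this
    simpa using this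
  · have hq1 : q⁻¹ < 1 := inv_lt_one_of_one_lt₀ h
    have hq0 : 0 < q⁻¹ := inv_pos.2 hq
    have := compReal_log_one_sub (1 - q⁻¹) (by linarith) (by linarith)
    push_cast at this
    rw [sub_sub_cancel, Real.log_inv] at this
    exact (CompFam.neg this).congr fun _ => by ring

/-- Effective one-variable functions. -/
structure Eff1 (f : ℝ → ℝ) : Prop where
  smooth : ContDiff ℝ ∞ f
  comp : CompFam (fun a : ℕ × ℚ => iteratedDeriv a.1 f (a.2 : ℝ))
  bdd : ∃ B : ℕ → ℕ, Computable B ∧ ∀ k x, |iteratedDeriv k f x| ≤ (B k : ℝ)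

theorem Eff1.stp : Eff1 stp := by
  refine ⟨stp_contDiff, stp_computable, fun k => 2 ^ (k * (k + 3)), ?_, fun k x => ?_⟩
  · have h : Primrec (fun k : ℕ => k * (k + 3)) :=
      Primrec.nat_mul.comp Primrec.id (Primrec.nat_add.comp Primrec.id (Primrec.const 3))
    exact (primrec_pow.comp (Primrec.const 2) h).to_comp
  · exact abs_iteratedDeriv_stp_le k x

theorem Eff1.comp_affine {f : ℝ → ℝ} (hf : Eff1 f) (a b : ℚ) :
    Eff1 (fun x => f ((a : ℝ) * x + (b : ℝ))) := by
  have hs : ContDiff ℝ ∞ (fun x => f ((a : ℝ) * x + (b : ℝ))) :=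
    hf.smooth.comp ((contDiff_const.mul contDiff_id).add contDiff_const)
  have key : ∀ (k : ℕ) (x : ℝ), iteratedDeriv k (fun x => f ((a : ℝ) * x + (b : ℝ))) x
      = (a : ℝ) ^ k * iteratedDeriv k f ((a : ℝ) * x + (b : ℝ)) := by
    intro k x
    have h1 : ContDiff ℝ k (fun z => f (z + (b : ℝ))) :=
      (hf.smooth.comp (contDiff_id.add contDiff_const)).of_le (by exact_mod_cast le_top)
    have h2 := congrFun (iteratedDeriv_comp_const_mul h1 (a : ℝ)) x
    rw [h2]
    have h3 := congrFun (iteratedDeriv_comp_add_const k f (b : ℝ)) ((a : ℝ) * x)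
    rw [h3]
  refine ⟨hs, ?_, ?_⟩
  · have h1 : CompFam (fun p : ℕ × ℚ => ((a ^ p.1 : ℚ) : ℝ)) :=
      CompFam.of_rat (rat_pow.comp (Primrec.const a) Primrec.fst).to_comp
    have h2 : Computable (fun p : ℕ × ℚ => (p.1, a * p.2 + b)) :=
      (Primrec.fst.pair (rat_add.comp (rat_mul.comp (Primrec.const a) Primrec.snd)
        (Primrec.const b))).to_comp
    refine (h1.mul (hf.comp.comp h2)).congr fun p => ?_
    rw [key]
    push_cast
    rfl
  · obtain ⟨B, hB, hB'⟩ := hf.bdd
    obtain ⟨N, hN⟩ := exists_nat_ge |(a : ℝ)|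
    refine ⟨fun k => N ^ k * B k, ?_, fun k x => ?_⟩
    · exact Primrec.nat_mul.to_comp.comp
        (primrec_pow.to_comp.comp (Computable.const N) Computable.id) hB
    · rw [key, abs_mul, abs_pow]
      push_cast
      gcongr
      exact hB' k _

theorem Eff1.deriv {f : ℝ → ℝ} (hf : Eff1 f) : Eff1 (_root_.deriv f) := by
  refine ⟨?_, ?_, ?_⟩
  · exact (contDiff_infty_iff_deriv.1 hf.smooth).2
  · have h2 : Computable (fun p : ℕ × ℚ => (p.1 + 1, p.2)) :=
      ((Primrec.succ.comp Primrec.fst).pair Primrec.snd).to_comp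
    refine (hf.comp.comp h2).congr fun p => ?_
    simp only [iteratedDeriv_succ']
  · obtain ⟨B, hB, hB'⟩ := hf.bdd
    refine ⟨fun k => B (k + 1), hB.comp Primrec.succ.to_comp, fun k x => ?_⟩
    rw [← iteratedDeriv_succ']
    exact hB' _ _

theorem Eff1.sub {f g : ℝ → ℝ} (hf : Eff1 f) (hg : Eff1 g) : Eff1 (fun x => f x - g x) := by
  have key : ∀ (k : ℕ) (x : ℝ), iteratedDeriv k (fun x => f x - g x) x
      = iteratedDeriv k f x - iteratedDeriv k g x := fun k x =>
    iteratedDeriv_fun_sub ((hf.smooth.of_le (by exact_mod_cast le_top)).contDiffAt)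
      ((hg.smooth.of_le (by exact_mod_cast le_top)).contDiffAt)
  refine ⟨hf.smooth.sub hg.smooth, (hf.comp.sub hg.comp).congr fun p => key _ _, ?_⟩
  obtain ⟨B, hB, hB'⟩ := hf.bdd
  obtain ⟨C, hC, hC'⟩ := hg.bdd
  refine ⟨fun k => B k + C k, Primrec.nat_add.to_comp.comp hB hC, fun k x => ?_⟩
  rw [key]
  push_cast
  exact (abs_sub _ _).trans (add_le_add (hB' k x) (hC' k x))

theorem Eff1.const_mul {f : ℝ → ℝ} (hf : Eff1 f) {c : ℝ} (hc : CompReal c) : Eff1 (fun x => c * f x) := by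
  have key : ∀ (k : ℕ) (x : ℝ), iteratedDeriv k (fun x => c * f x) x
      = c * iteratedDeriv k f x := fun k x => iteratedDeriv_const_mul_field c f
  refine ⟨contDiff_const.mul hf.smooth, ((hc.fam).mul hf.comp).congr fun p => key _ _, ?_⟩
  obtain ⟨B, hB, hB'⟩ := hf.bdd
  obtain ⟨N, hN⟩ := exists_nat_ge |c|
  refine ⟨fun k => N * B k, Primrec.nat_mul.to_comp.comp (Computable.const N) hB, fun k x => ?_⟩
  rw [key, abs_mul]
  push_cast
  gcongr
  exact hB' k x

/-- derivatives of an affine function times `f`. -/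
theorem iteratedDeriv_affine_mul {f : ℝ → ℝ} (hf : ContDiff ℝ ∞ f) (a b : ℝ) (k : ℕ) (x : ℝ) :
    iteratedDeriv k (fun x => (a * x + b) * f x) x
      = (a * x + b) * iteratedDeriv k f x + (k : ℝ) * a * iteratedDeriv (k - 1) f x := by
  induction k generalizing x with
  | zero => simp
  | succ k ih =>
    have hd : ∀ j : ℕ, ∀ y, HasDerivAt (iteratedDeriv j f) (iteratedDeriv (j + 1) f y) y := by
      intro j y
      rw [iteratedDeriv_succ]
      have : ContDiff ℝ (j + 1 : ℕ) f := hf.of_le (by exact_mod_cast le_top)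
      exact ((this.differentiable_iteratedDeriv' j) y).hasDerivAt
    rw [iteratedDeriv_succ, show iteratedDeriv k (fun x => (a * x + b) * f x)
      = fun x => (a * x + b) * iteratedDeriv k f x + (k : ℝ) * a * iteratedDeriv (k - 1) f x
      from funext ih]
    have h1 : HasDerivAt (fun x : ℝ => a * x + b) a x := by
      simpa using ((hasDerivAt_id x).const_mul a).add_const b
    have h2 := h1.fun_mul (hd k x)
    rcases k with _ | k
    · have h3 : HasDerivAt (fun x => (a * x + b) * iteratedDeriv 0 f x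
          + ((0 : ℕ) : ℝ) * a * iteratedDeriv (0 - 1) f x)
          (a * iteratedDeriv 0 f x + (a * x + b) * iteratedDeriv (0 + 1) f x) x := by
        simpa using h2
      rw [h3.deriv]
      simp
      ring
    · have h3 := h2.fun_add ((hd k x).const_mul (((k + 1 : ℕ) : ℝ) * a))
      have h4 : HasDerivAt (fun x => (a * x + b) * iteratedDeriv (k + 1) f x
          + ((k + 1 : ℕ) : ℝ) * a * iteratedDeriv (k + 1 - 1) f x)
          (a * iteratedDeriv (k + 1) f x + (a * x + b) * iteratedDeriv (k + 1 + 1) f x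
            + ((k + 1 : ℕ) : ℝ) * a * iteratedDeriv (k + 1) f x) x := h3
      rw [h4.deriv]
      simp only [Nat.add_sub_cancel]
      push_cast
      ring

/-- multiplication by an affine function with rational coefficients, for compactly supported `f`. -/
theorem Eff1.affine_mul {f : ℝ → ℝ} (hf : Eff1 f) (hc : HasCompactSupport f) (a b : ℚ) :
    Eff1 (fun x => ((a : ℝ) * x + (b : ℝ)) * f x) := by
  have key := iteratedDeriv_affine_mul hf.smooth (a : ℝ) (b : ℝ)
  refine ⟨((contDiff_const.mul contDiff_id).add contDiff_const).mul hf.smooth, ?_, ?_⟩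
  · have h1 : CompFam (fun p : ℕ × ℚ => ((a * p.2 + b : ℚ) : ℝ)) :=
      CompFam.of_rat (rat_add.comp (rat_mul.comp (Primrec.const a) Primrec.snd)
        (Primrec.const b)).to_comp
    have h2 : CompFam (fun p : ℕ × ℚ => (((p.1 : ℚ) * a : ℚ) : ℝ)) :=
      CompFam.of_rat (rat_mul.comp (rat_natCast.comp Primrec.fst) (Primrec.const a)).to_comp
    have h3 : Computable (fun p : ℕ × ℚ => (p.1 - 1, p.2)) :=
      ((Primrec.pred.comp Primrec.fst).pair Primrec.snd).to_comp
    refine ((h1.mul hf.comp).add (h2.mul (hf.comp.comp h3))).congr fun p => ?_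
    rw [key]
    push_cast
    rfl
  · obtain ⟨B, hB, hB'⟩ := hf.bdd
    obtain ⟨R, hR⟩ := hc.isCompact.isBounded.subset_closedBall 0
    obtain ⟨N, hN⟩ := exists_nat_ge (|(a : ℝ)| * |R| + |(b : ℝ)|)
    obtain ⟨M, hM⟩ := exists_nat_ge |(a : ℝ)|
    refine ⟨fun k => N * B k + k * M * B (k - 1), ?_, fun k x => ?_⟩
    · have h1 : Computable (fun k : ℕ => B (k - 1)) := hB.comp Primrec.pred.to_comp
      exact Primrec.nat_add.to_comp.comp
        (Primrec.nat_mul.to_comp.comp (Computable.const N) hB)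
        (Primrec.nat_mul.to_comp.comp
          (Primrec.nat_mul.to_comp.comp Computable.id (Computable.const M)) h1)
    · rw [key]
      push_cast
      refine (abs_add_le _ _).trans (add_le_add ?_ ?_)
      · by_cases hx : x ∈ tsupport f
        · rw [abs_mul]
          have hx' := hR hx
          rw [Metric.mem_closedBall, dist_zero_right, Real.norm_eq_abs] at hx'
          have h1 : |(a : ℝ) * x + b| ≤ N := by
            refine (abs_add_le _ _).trans (le_trans ?_ hN)
            rw [abs_mul]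
            exact add_le_add (mul_le_mul_of_nonneg_left (hx'.trans (le_abs_self R))
              (abs_nonneg _)) le_rfl
          gcongr
          exact hB' k x
        · have h0 : iteratedDeriv k f x = 0 := by
            have : f =ᶠ[nhds x] fun _ => (0 : ℝ) := by
              have hmem : (tsupport f)ᶜ ∈ nhds x :=
                (isClosed_tsupport f).isOpen_compl.mem_nhds hx
              filter_upwards [hmem] with y hy
              exact image_eq_zero_of_notMem_tsupport hy
            rw [this.iteratedDeriv_eq]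
            simp
          rw [h0, mul_zero, abs_zero]
          positivity
      · rw [abs_mul, abs_mul, Nat.abs_cast]
        gcongr
        exact hB' _ x

/-! ### the cutoff -/

/-- Cutoff: equal to `1` for `|x - c| ≤ h + ε/2`, equal to `0` for `h + ε ≤ |x - c|`. -/
noncomputable def cut (c h ε : ℚ) (x : ℝ) : ℝ :=
  stp (((2 / ε : ℚ) : ℝ) * x + ((2 / ε * (h + ε - c) : ℚ) : ℝ)) -
    stp (((2 / ε : ℚ) : ℝ) * x + ((2 / ε * (- h - ε / 2 - c) : ℚ) : ℝ))

theorem cut_eff (c h ε : ℚ) : Eff1 (cut c h ε) :=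
  (Eff1.stp.comp_affine _ _).sub (Eff1.stp.comp_affine _ _)

theorem cut_arg1 {c h ε : ℚ} {x : ℝ} :
    ((2 / ε : ℚ) : ℝ) * x + ((2 / ε * (h + ε - c) : ℚ) : ℝ) = 2 / ε * ((x - c) + h + ε) := by
  push_cast; ring

theorem cut_arg2 {c h ε : ℚ} {x : ℝ} :
    ((2 / ε : ℚ) : ℝ) * x + ((2 / ε * (- h - ε / 2 - c) : ℚ) : ℝ)
      = 2 / ε * ((x - c) - h - ε / 2) := by
  push_cast; ring

theorem cut_eq_one {c h ε : ℚ} (hh : 0 ≤ h) (hε : 0 < ε) {x : ℝ} (hx : |x - c| ≤ h + ε / 2) :
    cut c h ε x = 1 := by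
  have hε' : (0 : ℝ) < ε := by exact_mod_cast hε
  have hx1 := (abs_le.1 hx).1
  have hx2 := (abs_le.1 hx).2
  rw [cut, cut_arg1, cut_arg2, stp_of_one_le, stp_of_nonpos, sub_zero]
  · apply mul_nonpos_of_nonneg_of_nonpos (by positivity)
    linarith
  · rw [div_mul_eq_mul_div, le_div_iff₀ hε']
    linarith

theorem cut_eq_zero {c h ε : ℚ} (hh : 0 ≤ h) (hε : 0 < ε) {x : ℝ} (hx : h + ε ≤ |x - c|) :
    cut c h ε x = 0 := by
  have hε' : (0 : ℝ) < ε := by exact_mod_cast hε
  have hh' : (0 : ℝ) ≤ h := by exact_mod_cast hh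
  rw [cut, cut_arg1, cut_arg2]
  rcases le_abs.1 hx with h1 | h1
  · rw [stp_of_one_le, stp_of_one_le, sub_self]
    · rw [div_mul_eq_mul_div, le_div_iff₀ hε']
      linarith
    · rw [div_mul_eq_mul_div, le_div_iff₀ hε']
      linarith
  · rw [stp_of_nonpos, stp_of_nonpos, sub_self]
    · apply mul_nonpos_of_nonneg_of_nonpos (by positivity)
      linarith
    · apply mul_nonpos_of_nonneg_of_nonpos (by positivity)
      linarith

theorem cut_compact {c h ε : ℚ} (hh : 0 ≤ h) (hε : 0 < ε) : HasCompactSupport (cut c h ε) := by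
  refine HasCompactSupport.intro (isCompact_closedBall (c : ℝ) ((h : ℝ) + ε)) fun x hx => ?_
  refine cut_eq_zero hh hε ?_
  rw [Metric.mem_closedBall, Real.dist_eq, not_le] at hx
  exact hx.le

end Crest.Agent.R126
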