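/- R126 (S0170): shared definitions. -/
import Mathlib
import Crest.Prelude.Def_BoxFlow

set_option autoImplicit false
open scoped ContDiff
open Crest.AnalysisR.BoxFlow

namespace Crest.Agent.R126

/-- A field admissible for the statement. -/
structure Good (U : Field) : Prop where
  smooth : ContDiff ℝ ∞ U
  compact : HasCompactSupport U
  eff : Effective U
  time : ∀ p : ℝ × (Fin 3 → ℝ), p.1 ∉ Set.Icc (1 / 4 : ℝ) (3 / 4) → U p = 0
  div : ∀ p : ℝ × (Fin 3 → ℝ), spaceDiv U p = 0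

/-- A configuration: centre and half-widths of each of the `n` boxes. -/
abbrev Cfg (n : ℕ) : Type := Fin n → (Fin 3 → ℚ) × (Fin 3 → ℚ)

/-- all half-widths are positive. -/
def Cfg.Pos {n : ℕ} (c : Cfg n) : Prop := ∀ i j, 0 < (c i).2 j

/-- boxes pairwise disjoint. -/
def Cfg.Disj {n : ℕ} (c : Cfg n) : Prop :=
  Pairwise fun i i' => Disjoint (box (c i).1 (c i).2) (box (c i').1 (c i').2)

/-- The relation realised by the time-one flow of a good field. -/
def Realizes {n : ℕ} (c d : Cfg n) : Prop :=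
  ∃ (U : Field) (Φ : ℝ → (Fin 3 → ℝ) → (Fin 3 → ℝ)), Good U ∧ IsFlow U Φ ∧
    ∀ i : Fin n, ∃ O : Set (Fin 3 → ℝ), IsOpen O ∧ box (c i).1 (c i).2 ⊆ O ∧
      ∀ x ∈ O, Φ 1 x = fun j => ((d i).1 j : ℝ) +
        (((d i).2 j / (c i).2 j : ℚ) : ℝ) * (x j - ((c i).1 j : ℝ))

end Crest.Agent.R126
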