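/- R126 (S0170): existence and uniqueness of flows; reflexivity and transitivity of `Realizes`. -/
import Mathlib
import Crest.Agent.R126.Defs

set_option autoImplicit false
open scoped ContDiff
open Crest.AnalysisR.BoxFlow

namespace Crest.Agent.R126

open Set Metric Filter Topology

/-- A compactly supported smooth field is globally Lipschitz in space, uniformly in time. -/
theorem exists_lipschitz {U : Field} (hU : ContDiff ℝ ∞ U) (hc : HasCompactSupport U) :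
    ∃ K : NNReal, ∀ t : ℝ, LipschitzWith K (fun x => U (t, x)) := by
  obtain ⟨K, hK⟩ := ContDiff.lipschitzWith_of_hasCompactSupport hc hU (by simp)
  refine ⟨K, fun t => LipschitzWith.of_dist_le_mul fun x y => ?_⟩
  have := hK.dist_le_mul (t, x) (t, y)
  rwa [Prod.dist_eq, dist_self, max_eq_right dist_nonneg] at this

/-- A compactly supported continuous field is bounded. -/
theorem exists_bound {U : Field} (hU : ContDiff ℝ ∞ U) (hc : HasCompactSupport U) :
    ∃ L : NNReal, ∀ p, ‖U p‖ ≤ L := by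
  obtain ⟨C, hC⟩ := hc.exists_bound_of_continuous hU.continuous
  exact ⟨⟨max C 0, le_max_right _ _⟩, fun p => (hC p).trans (le_max_left _ _)⟩

/-- A compactly supported field vanishes for large times. -/
theorem exists_time_bound {U : Field} (hc : HasCompactSupport U) :
    ∃ T : ℝ, 0 < T ∧ ∀ t x, T ≤ |t| → U (t, x) = 0 := by
  obtain ⟨R, hR⟩ := hc.isCompact.isBounded.subset_closedBall 0
  refine ⟨max R 0 + 1, by positivity, fun t x ht => ?_⟩
  by_contra hne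
  have hmem : (t, x) ∈ tsupport U := subset_tsupport _ hne
  have h1 := hR hmem
  rw [mem_closedBall, dist_zero_right] at h1
  have h2 : |t| ≤ ‖(t, x)‖ := by
    exact norm_fst_le (t, x)
  have h3 : R ≤ max R 0 := le_max_left _ _
  linarith

/-- If the field vanishes on a convex time set, the curve is constant there. -/
theorem const_of_zero {γ : ℝ → (Fin 3 → ℝ)} {s : Set ℝ} (hs : Convex ℝ s) {U : Field}
    (hγ : ∀ t ∈ s, HasDerivWithinAt γ (U (t, γ t)) s t) (h0 : ∀ t ∈ s, ∀ x, U (t, x) = 0)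
    {a b : ℝ} (ha : a ∈ s) (hb : b ∈ s) : γ a = γ b := by
  have := Convex.norm_image_sub_le_of_norm_hasDerivWithin_le (C := 0) hγ
    (fun t ht => by rw [h0 t ht]; simp) hs hb ha
  rw [zero_mul] at this
  exact sub_eq_zero.1 (norm_le_zero_iff.1 this)

/-- Picard-Lindelöf, global: a smooth compactly supported field has a flow. -/
theorem exists_flow {U : Field} (hU : ContDiff ℝ ∞ U) (hc : HasCompactSupport U) :
    ∃ Φ : ℝ → (Fin 3 → ℝ) → (Fin 3 → ℝ), IsFlow U Φ := by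
  obtain ⟨K, hK⟩ := exists_lipschitz hU hc
  obtain ⟨L, hL⟩ := exists_bound hU hc
  obtain ⟨T, hT, hT0⟩ := exists_time_bound hc
  have key : ∀ x : Fin 3 → ℝ, ∃ γ : ℝ → (Fin 3 → ℝ), γ 0 = x ∧
      ∀ t, HasDerivAt γ (U (t, γ t)) t := by
    intro x
    have h0 : (0 : ℝ) ∈ Icc (-(T + 2)) (T + 2) := ⟨by linarith, by linarith⟩
    have hPL : IsPicardLindelof (fun t y => U (t, y)) (tmin := -(T + 2)) (tmax := T + 2)
        ⟨0, h0⟩ x (L * ⟨T + 2, by linarith⟩) 0 L K := by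
      refine ⟨fun t _ => (hK t).lipschitzOnWith, fun y _ => ?_, fun t _ y _ => hL _, ?_⟩
      · exact (hU.continuous.comp (continuous_id.prodMk continuous_const)).continuousOn
      · simp only [sub_zero, zero_sub, neg_neg, max_self, sub_neg_eq_add, zero_add, NNReal.coe_mul,
          NNReal.coe_zero]
        exact le_rfl
    obtain ⟨α, hα0, hα⟩ := hPL.exists_eq_forall_mem_Icc_hasDerivWithinAt₀
    have hαd : ∀ t ∈ Ioo (-(T + 2)) (T + 2), HasDerivAt α (U (t, α t)) t := fun t ht =>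
      (hα t (Ioo_subset_Icc_self ht)).hasDerivAt (Icc_mem_nhds ht.1 ht.2)
    have hr : ∀ t ∈ Icc T (T + 2), α t = α (T + 1) := fun t ht =>
      const_of_zero (convex_Icc T (T + 2)) (U := U)
        (fun s hs => (hα s ⟨by linarith [hs.1], hs.2⟩).mono
          (Icc_subset_Icc (by linarith) le_rfl))
        (fun s hs y => hT0 s y (hs.1.trans (le_abs_self s))) ht ⟨by linarith, by linarith⟩
    have hl : ∀ t ∈ Icc (-(T + 2)) (-T), α t = α (-(T + 1)) := fun t ht =>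
      const_of_zero (convex_Icc (-(T + 2)) (-T)) (U := U)
        (fun s hs => (hα s ⟨hs.1, by linarith [hs.2]⟩).mono
          (Icc_subset_Icc le_rfl (by linarith)))
        (fun s hs y => hT0 s y (by linarith [hs.2, neg_le_abs s])) ht ⟨by linarith, by linarith⟩
    refine ⟨fun t => α (max (-(T + 1)) (min t (T + 1))), ?_, fun t => ?_⟩
    · have : max (-(T + 1)) (min 0 (T + 1)) = (0 : ℝ) := by
        rw [min_eq_left (by linarith), max_eq_right (by linarith)]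
      show α (max (-(T + 1)) (min 0 (T + 1))) = x
      rw [this]; exact hα0
    · rcases lt_or_ge t (-T) with ht | ht
      · have hev : (fun t => α (max (-(T + 1)) (min t (T + 1)))) =ᶠ[𝓝 t] fun _ => α (-(T + 1)) := by
          filter_upwards [Iio_mem_nhds ht] with s hs
          have hs' : s < -T := hs
          rw [min_eq_left (by linarith)]
          exact hl _ ⟨by have := le_max_left (-(T + 1)) s; linarith,
            max_le (by linarith) hs'.le⟩
        have hz : U (t, α (max (-(T + 1)) (min t (T + 1)))) = 0 :=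
          hT0 _ _ (by linarith [neg_le_abs t])
        rw [hz]
        exact (hasDerivAt_const t (α (-(T + 1)))).congr_of_eventuallyEq hev
      · rcases le_or_gt t T with ht' | ht'
        · have hev : (fun t => α (max (-(T + 1)) (min t (T + 1)))) =ᶠ[𝓝 t] α := by
            filter_upwards [Ioo_mem_nhds (show -(T + 1) < t by linarith)
              (show t < T + 1 by linarith)] with s hs
            rw [min_eq_left hs.2.le, max_eq_right hs.1.le]
          have e : max (-(T + 1)) (min t (T + 1)) = t := by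
            rw [min_eq_left (by linarith), max_eq_right (by linarith)]
          simp only [e]
          exact (hαd t ⟨by linarith, by linarith⟩).congr_of_eventuallyEq hev
        · have hev : (fun t => α (max (-(T + 1)) (min t (T + 1)))) =ᶠ[𝓝 t] fun _ => α (T + 1) := by
            filter_upwards [Ioi_mem_nhds ht'] with s hs
            have hs' : T < s := hs
            have h1 : T ≤ min s (T + 1) := le_min hs'.le (by linarith)
            rw [max_eq_right (by linarith)]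
            exact hr _ ⟨h1, by have := min_le_right s (T + 1); linarith⟩
          have hz : U (t, α (max (-(T + 1)) (min t (T + 1)))) = 0 :=
            hT0 _ _ (by linarith [le_abs_self t])
          rw [hz]
          exact (hasDerivAt_const t (α (T + 1))).congr_of_eventuallyEq hev
  choose γ hγ0 hγ using key
  exact ⟨fun t x => γ x t, fun x => hγ0 x, fun t x => hγ x t⟩

/-- Uniqueness. -/
theorem IsFlow_eq {U : Field} (hU : ContDiff ℝ ∞ U) (hc : HasCompactSupport U)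
    {Φ : ℝ → (Fin 3 → ℝ) → (Fin 3 → ℝ)} (hΦ : IsFlow U Φ) {γ : ℝ → (Fin 3 → ℝ)}
    (hγ : ∀ t, HasDerivAt γ (U (t, γ t)) t) (t : ℝ) : Φ t (γ 0) = γ t := by
  obtain ⟨K, hK⟩ := exists_lipschitz hU hc
  have := ODE_solution_unique_univ (v := fun t x => U (t, x)) (s := fun _ => univ) (K := K)
    (f := fun s => Φ s (γ 0)) (g := γ) (t₀ := 0)
    (fun t => (hK t).lipschitzOnWith) (fun t => ⟨hΦ.2 t (γ 0), trivial⟩)
    (fun t => ⟨hγ t, trivial⟩) (hΦ.1 (γ 0))
  exact congrFun this t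

/-- Points that stay outside the spatial support do not move. -/
theorem IsFlow_const {U : Field} (hU : ContDiff ℝ ∞ U) (hc : HasCompactSupport U)
    {Φ : ℝ → (Fin 3 → ℝ) → (Fin 3 → ℝ)} (hΦ : IsFlow U Φ) {x : Fin 3 → ℝ} (hx : ∀ t, U (t, x) = 0) (t : ℝ) :
    Φ t x = x := by
  exact IsFlow_eq hU hc hΦ (γ := fun _ => x)
    (fun t => by rw [hx t]; exact hasDerivAt_const t x) t

/-- Vanishing off `[1/4,3/4]` extends to the closure of the complement. -/
theorem zero_of_le {U : Field}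
    (h : ∀ p : ℝ × (Fin 3 → ℝ), p.1 ∉ Set.Icc (1 / 4 : ℝ) (3 / 4) → U p = 0)
    (c : ContDiff ℝ ∞ U) {t : ℝ} (ht : t ≤ 1 / 4) (x : Fin 3 → ℝ) : U (t, x) = 0 := by
  rcases ht.lt_or_eq with ht | rfl
  · exact h _ fun h' => absurd h'.1 (not_le.2 ht)
  · have hcont : Continuous fun s : ℝ => U (s, x) :=
      c.continuous.comp (continuous_id.prodMk continuous_const)
    have hlim : Tendsto (fun s : ℝ => U (s, x)) (𝓝[<] (1 / 4)) (𝓝 (U (1 / 4, x))) :=
      hcont.continuousAt.tendsto.mono_left nhdsWithin_le_nhds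
    have hz : Tendsto (fun s : ℝ => U (s, x)) (𝓝[<] (1 / 4)) (𝓝 0) := by
      refine tendsto_const_nhds.congr' ?_
      filter_upwards [self_mem_nhdsWithin] with s hs
      exact (h (s, x) fun h' => absurd h'.1 (not_le.2 hs)).symm
    exact tendsto_nhds_unique hlim hz

theorem zero_of_ge {U : Field}
    (h : ∀ p : ℝ × (Fin 3 → ℝ), p.1 ∉ Set.Icc (1 / 4 : ℝ) (3 / 4) → U p = 0)
    (c : ContDiff ℝ ∞ U) {t : ℝ} (ht : 3 / 4 ≤ t) (x : Fin 3 → ℝ) : U (t, x) = 0 := by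
  rcases ht.lt_or_eq with ht | rfl
  · exact h _ fun h' => absurd h'.2 (not_le.2 ht)
  · have hcont : Continuous fun s : ℝ => U (s, x) :=
      c.continuous.comp (continuous_id.prodMk continuous_const)
    have hlim : Tendsto (fun s : ℝ => U (s, x)) (𝓝[>] (3 / 4)) (𝓝 (U (3 / 4, x))) :=
      hcont.continuousAt.tendsto.mono_left nhdsWithin_le_nhds
    have hz : Tendsto (fun s : ℝ => U (s, x)) (𝓝[>] (3 / 4)) (𝓝 0) := by
      refine tendsto_const_nhds.congr' ?_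
      filter_upwards [self_mem_nhdsWithin] with s hs
      exact (h (s, x) fun h' => absurd h'.2 (not_le.2 hs)).symm
    exact tendsto_nhds_unique hlim hz

/-- Before time `1/4` nothing has moved. -/
theorem flow_le {U : Field}
    (h : ∀ p : ℝ × (Fin 3 → ℝ), p.1 ∉ Set.Icc (1 / 4 : ℝ) (3 / 4) → U p = 0)
    (c : ContDiff ℝ ∞ U) {Φ : ℝ → (Fin 3 → ℝ) → (Fin 3 → ℝ)} (f : IsFlow U Φ) {t : ℝ}
    (ht : t ≤ 1 / 4) (x : Fin 3 → ℝ) : Φ t x = x := by
  have := const_of_zero (γ := fun s => Φ s x) (convex_Iic (1 / 4 : ℝ)) (U := U)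
    (fun s _ => (f.2 s x).hasDerivWithinAt) (fun s hs y => zero_of_le h c hs y)
    (a := t) (b := 0) ht (by norm_num [mem_Iic])
  simpa [f.1 x] using this

/-- After time `3/4` nothing moves. -/
theorem flow_ge {U : Field}
    (h : ∀ p : ℝ × (Fin 3 → ℝ), p.1 ∉ Set.Icc (1 / 4 : ℝ) (3 / 4) → U p = 0)
    (c : ContDiff ℝ ∞ U) {Φ : ℝ → (Fin 3 → ℝ) → (Fin 3 → ℝ)} (f : IsFlow U Φ) {t : ℝ}
    (ht : 3 / 4 ≤ t) (x : Fin 3 → ℝ) : Φ t x = Φ 1 x :=
  const_of_zero (γ := fun s => Φ s x) (convex_Ici (3 / 4 : ℝ)) (U := U)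
    (fun s _ => (f.2 s x).hasDerivWithinAt) (fun s hs y => zero_of_ge h c hs y)
    (a := t) (b := 1) ht (by norm_num [mem_Ici])

/-- Concatenation in time. If `Φ₁`, `Φ₂` are flows of `U₁`, `U₂` (both vanishing off `[1/4,3/4]`),
the field running `U₁` on `[1/4,1/2]` and `U₂` on `[1/2,3/4]` has a flow with time-one map the composite. -/
theorem concat_flow {U₁ U₂ : Field}
    (h₁ : ∀ p : ℝ × (Fin 3 → ℝ), p.1 ∉ Set.Icc (1 / 4 : ℝ) (3 / 4) → U₁ p = 0)
    (h₂ : ∀ p : ℝ × (Fin 3 → ℝ), p.1 ∉ Set.Icc (1 / 4 : ℝ) (3 / 4) → U₂ p = 0)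
    (c₁ : ContDiff ℝ ∞ U₁) (c₂ : ContDiff ℝ ∞ U₂) (k₁ : HasCompactSupport U₁) (k₂ : HasCompactSupport U₂)
    {Φ₁ Φ₂ : ℝ → (Fin 3 → ℝ) → (Fin 3 → ℝ)} (f₁ : IsFlow U₁ Φ₁) (f₂ : IsFlow U₂ Φ₂) :
    ∃ Φ : ℝ → (Fin 3 → ℝ) → (Fin 3 → ℝ),
      IsFlow (fun p => (2 : ℝ) • U₁ (2 * p.1 + (-1 / 4), p.2) + (2 : ℝ) • U₂ (2 * p.1 + (-3 / 4), p.2)) Φ ∧
      ∀ x, Φ 1 x = Φ₂ 1 (Φ₁ 1 x) := by
  refine ⟨fun t x => Φ₂ (2 * t + (-3 / 4)) (Φ₁ (2 * t + (-1 / 4)) x), ⟨fun x => ?_, fun t x => ?_⟩,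
    fun x => ?_⟩
  · show Φ₂ (2 * 0 + (-3 / 4)) (Φ₁ (2 * 0 + (-1 / 4)) x) = x
    rw [flow_le h₁ c₁ f₁ (by norm_num), flow_le h₂ c₂ f₂ (by norm_num)]
  · -- the two halves
    have hL : ∀ s : ℝ, s ≤ 1 / 2 → Φ₂ (2 * s + (-3 / 4)) (Φ₁ (2 * s + (-1 / 4)) x)
        = Φ₁ (2 * s + (-1 / 4)) x := fun s hs => flow_le h₂ c₂ f₂ (by linarith) _
    have hR : ∀ s : ℝ, 1 / 2 ≤ s → Φ₂ (2 * s + (-3 / 4)) (Φ₁ (2 * s + (-1 / 4)) x)
        = Φ₂ (2 * s + (-3 / 4)) (Φ₁ 1 x) := fun s hs => by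
      rw [flow_ge h₁ c₁ f₁ (show 3 / 4 ≤ 2 * s + (-1 / 4) by linarith)]
    have dL : HasDerivAt (fun s => Φ₁ (2 * s + (-1 / 4)) x)
        ((2 : ℝ) • U₁ (2 * t + (-1 / 4), Φ₁ (2 * t + (-1 / 4)) x)) t := by
      have h1 : HasDerivAt (fun s : ℝ => 2 * s + (-1 / 4)) (2 : ℝ) t := by
        simpa using ((hasDerivAt_id t).const_mul (2 : ℝ)).add_const (-1 / 4 : ℝ)
      exact (f₁.2 (2 * t + (-1 / 4)) x).scomp t h1
    have dR : HasDerivAt (fun s => Φ₂ (2 * s + (-3 / 4)) (Φ₁ 1 x))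
        ((2 : ℝ) • U₂ (2 * t + (-3 / 4), Φ₂ (2 * t + (-3 / 4)) (Φ₁ 1 x))) t := by
      have h1 : HasDerivAt (fun s : ℝ => 2 * s + (-3 / 4)) (2 : ℝ) t := by
        simpa using ((hasDerivAt_id t).const_mul (2 : ℝ)).add_const (-3 / 4 : ℝ)
      exact (f₂.2 (2 * t + (-3 / 4)) (Φ₁ 1 x)).scomp t h1
    have wL : t ≤ 1 / 2 → HasDerivWithinAt
        (fun s => Φ₂ (2 * s + (-3 / 4)) (Φ₁ (2 * s + (-1 / 4)) x))
        ((2 : ℝ) • U₁ (2 * t + (-1 / 4), Φ₂ (2 * t + (-3 / 4)) (Φ₁ (2 * t + (-1 / 4)) x)) +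
          (2 : ℝ) • U₂ (2 * t + (-3 / 4), Φ₂ (2 * t + (-3 / 4)) (Φ₁ (2 * t + (-1 / 4)) x)))
        (Iic (1 / 2)) t := by
      intro ht
      rw [zero_of_le h₂ c₂ (show 2 * t + (-3 / 4) ≤ 1 / 4 by linarith), smul_zero, add_zero, hL t ht]
      exact dL.hasDerivWithinAt.congr (fun s hs => hL s hs) (hL t ht)
    have wR : 1 / 2 ≤ t → HasDerivWithinAt
        (fun s => Φ₂ (2 * s + (-3 / 4)) (Φ₁ (2 * s + (-1 / 4)) x))
        ((2 : ℝ) • U₁ (2 * t + (-1 / 4), Φ₂ (2 * t + (-3 / 4)) (Φ₁ (2 * t + (-1 / 4)) x)) +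
          (2 : ℝ) • U₂ (2 * t + (-3 / 4), Φ₂ (2 * t + (-3 / 4)) (Φ₁ (2 * t + (-1 / 4)) x)))
        (Ici (1 / 2)) t := by
      intro ht
      rw [zero_of_ge h₁ c₁ (show 3 / 4 ≤ 2 * t + (-1 / 4) by linarith), smul_zero, zero_add, hR t ht]
      exact dR.hasDerivWithinAt.congr (fun s hs => hR s hs) (hR t ht)
    rcases lt_trichotomy t (1 / 2) with ht | ht | ht
    · exact (wL ht.le).hasDerivAt (Iic_mem_nhds ht)
    · have := (wL ht.le).union (wR ht.ge)
      rwa [Iic_union_Ici, hasDerivWithinAt_univ] at this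
    · exact (wR ht.le).hasDerivAt (Ici_mem_nhds ht)
  · show Φ₂ (2 * 1 + (-3 / 4)) (Φ₁ (2 * 1 + (-1 / 4)) x) = Φ₂ 1 (Φ₁ 1 x)
    rw [flow_ge h₁ c₁ f₁ (by norm_num), flow_ge h₂ c₂ f₂ (by norm_num)]

end Crest.Agent.R126
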