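/- R126 (S0170): tensor-product fields; effectiveness of tensor fields, closure of `Effective`. -/
import Mathlib
import Crest.Agent.R126.Defs
import Crest.Agent.R126.Comp

set_option autoImplicit false
open scoped ContDiff
open Crest.AnalysisR.BoxFlow

namespace Crest.Agent.R126

/-- Tensor product of four one-variable functions: `g 0` of time, `g (k+1)` of the `k`-th coordinate. -/
def T (g : Fin 4 → ℝ → ℝ) (p : ℝ × (Fin 3 → ℝ)) : ℝ := g 0 p.1 * ∏ k : Fin 3, g k.succ (p.2 k)

/-- vector field in direction `k`. -/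
def TF (k : Fin 3) (g : Fin 4 → ℝ → ℝ) : Field := fun p => Pi.single k (T g p)

theorem T_contDiff {g : Fin 4 → ℝ → ℝ} (hg : ∀ i, ContDiff ℝ ∞ (g i)) : ContDiff ℝ ∞ (T g) := by
  unfold T
  apply ContDiff.mul
  · exact (hg 0).comp contDiff_fst
  · apply contDiff_prod
    intro k _
    exact (hg k.succ).comp ((contDiff_apply ℝ ℝ k).comp contDiff_snd)

theorem TF_eq (k : Fin 3) (g : Fin 4 → ℝ → ℝ) :
    TF k g = fun p => (ContinuousLinearMap.single ℝ (fun _ : Fin 3 => ℝ) k) (T g p) := by
  funext p
  simp [TF]

theorem TF_contDiff {k : Fin 3} {g : Fin 4 → ℝ → ℝ} (hg : ∀ i, ContDiff ℝ ∞ (g i)) :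
    ContDiff ℝ ∞ (TF k g) := by
  rw [TF_eq]
  exact (ContinuousLinearMap.contDiff _).comp (T_contDiff hg)

theorem direction_zero : direction 0 = ((1 : ℝ), (0 : Fin 3 → ℝ)) := by simp [direction]
theorem direction_succ (k : Fin 3) : direction k.succ = ((0 : ℝ), (Pi.single k 1 : Fin 3 → ℝ)) := by
  simp [direction]

theorem fderiv_T {g : Fin 4 → ℝ → ℝ} (hg : ∀ i, ContDiff ℝ ∞ (g i)) (d : Fin 4)
    (p : ℝ × (Fin 3 → ℝ)) :
    fderiv ℝ (T g) p (direction d) = T (Function.update g d (deriv (g d))) p := by
  have hd : DifferentiableAt ℝ (T g) p := (T_contDiff hg).differentiable (by simp) p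
  rw [← hd.lineDeriv_eq_fderiv, lineDeriv]
  have hgd : ∀ i x, HasDerivAt (fun s : ℝ => g i (x + s)) (deriv (g i) x) 0 := fun i x => by
    have := ((hg i).differentiable (by simp) (x + 0)).hasDerivAt.comp_const_add x 0
    simpa using this
  apply HasDerivAt.deriv
  obtain rfl | rfl | rfl | rfl : d = 0 ∨ d = 1 ∨ d = 2 ∨ d = 3 := by fin_cases d <;> simp
  · have h1 := (hgd 0 p.1).mul_const (∏ k : Fin 3, g k.succ (p.2 k))
    have e : (fun s : ℝ => T g (p + s • direction 0)) =
        fun s => g 0 (p.1 + s) * ∏ k : Fin 3, g k.succ (p.2 k) := by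
      funext s
      simp [T, direction_zero]
    rw [e]
    refine h1.congr_deriv ?_
    simp [T, Fin.prod_univ_three]
  · have h1 := (hgd 1 (p.2 0)).const_mul (g 0 p.1 * g 2 (p.2 1) * g 3 (p.2 2))
    have e : (fun s : ℝ => T g (p + s • direction 1)) =
        fun s => g 0 p.1 * g 2 (p.2 1) * g 3 (p.2 2) * g 1 (p.2 0 + s) := by
      funext s
      rw [show direction 1 = _ from direction_succ 0]
      simp [T, Fin.prod_univ_three, Pi.single_apply]
      ring
    rw [e]
    refine h1.congr_deriv ?_
    simp [T, Fin.prod_univ_three, Function.update]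
    ring
  · have h1 := (hgd 2 (p.2 1)).const_mul (g 0 p.1 * g 1 (p.2 0) * g 3 (p.2 2))
    have e : (fun s : ℝ => T g (p + s • direction 2)) =
        fun s => g 0 p.1 * g 1 (p.2 0) * g 3 (p.2 2) * g 2 (p.2 1 + s) := by
      funext s
      rw [show direction 2 = _ from direction_succ 1]
      simp [T, Fin.prod_univ_three, Pi.single_apply]
      ring
    rw [e]
    refine h1.congr_deriv ?_
    simp [T, Fin.prod_univ_three, Function.update]
    ring
  · have h1 := (hgd 3 (p.2 2)).const_mul (g 0 p.1 * g 1 (p.2 0) * g 2 (p.2 1))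
    have e : (fun s : ℝ => T g (p + s • direction 3)) =
        fun s => g 0 p.1 * g 1 (p.2 0) * g 2 (p.2 1) * g 3 (p.2 2 + s) := by
      funext s
      rw [show direction 3 = _ from direction_succ 2]
      simp [T, Fin.prod_univ_three, Pi.single_apply]
      ring
    rw [e]
    refine h1.congr_deriv ?_
    simp [T, Fin.prod_univ_three, Function.update]
    ring

/-- directional derivative of a tensor product. -/
theorem fderiv_TF {k : Fin 3} {g : Fin 4 → ℝ → ℝ} (hg : ∀ i, ContDiff ℝ ∞ (g i)) (d : Fin 4)
    (p : ℝ × (Fin 3 → ℝ)) :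
    fderiv ℝ (TF k g) p (direction d) = TF k (Function.update g d (deriv (g d))) p := by
  have hd : DifferentiableAt ℝ (T g) p := (T_contDiff hg).differentiable (by simp) p
  rw [TF_eq, TF_eq]
  have := ((ContinuousLinearMap.single ℝ (fun _ : Fin 3 => ℝ) k).hasFDerivAt
    (x := T g p)).comp p hd.hasFDerivAt
  have h2 := this.fderiv
  simp only [Function.comp_def] at h2
  rw [h2, ContinuousLinearMap.comp_apply, fderiv_T hg]


theorem iteratedDeriv_contDiff {f : ℝ → ℝ} (hf : ContDiff ℝ ∞ f) (n : ℕ) : ContDiff ℝ ∞ (iteratedDeriv n f) := by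
  rw [iteratedDeriv_eq_iterate]
  exact ContDiff.iterate_deriv n hf

theorem mixedDeriv_cons (d : Fin 4) (ds : List (Fin 4)) (U : Field) (p : ℝ × (Fin 3 → ℝ)) :
    mixedDeriv (d :: ds) U p = fderiv ℝ (mixedDeriv ds U) p (direction d) := rfl

theorem mixedDeriv_TF {k : Fin 3} {g : Fin 4 → ℝ → ℝ} (hg : ∀ i, ContDiff ℝ ∞ (g i)) (ds : List (Fin 4)) :
    mixedDeriv ds (TF k g) = TF k (fun i => iteratedDeriv (ds.count i) (g i)) := by
  induction ds with
  | nil =>
    simp [mixedDeriv]
  | cons d ds ih =>
    funext p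
    rw [mixedDeriv_cons, ih, fderiv_TF (fun i => iteratedDeriv_contDiff (hg i) _)]
    congr 1
    funext i
    by_cases h : i = d
    · subst h
      simp [iteratedDeriv_succ]
    · rw [Function.update_of_ne h, List.count_cons_of_ne (Ne.symm h)]

theorem mixedDeriv_contDiff {U : Field} (hU : ContDiff ℝ ∞ U) (ds : List (Fin 4)) :
    ContDiff ℝ ∞ (mixedDeriv ds U) := by
  induction ds with
  | nil => simpa [mixedDeriv] using hU
  | cons d ds ih =>
    have h1 : ContDiff ℝ ∞ (fderiv ℝ (mixedDeriv ds U)) := ih.fderiv_right (by simp)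
    exact h1.clm_apply contDiff_const

theorem mixedDeriv_add {U V : Field} (hU : ContDiff ℝ ∞ U) (hV : ContDiff ℝ ∞ V) (ds : List (Fin 4)) :
    mixedDeriv ds (fun p => U p + V p) = fun p => mixedDeriv ds U p + mixedDeriv ds V p := by
  induction ds with
  | nil => rfl
  | cons d ds ih =>
    funext p
    rw [mixedDeriv_cons, ih]
    have h1 := (mixedDeriv_contDiff hU ds).differentiable (by simp) p
    have h2 := (mixedDeriv_contDiff hV ds).differentiable (by simp) p
    rw [fderiv_fun_add h1 h2]
    rfl

theorem mixedDeriv_rescale {U : Field} (hU : ContDiff ℝ ∞ U) (a b : ℝ) (ds : List (Fin 4)) :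
    mixedDeriv ds (fun p => a • U (a * p.1 + b, p.2)) =
      fun p => (a * a ^ (ds.count 0)) • mixedDeriv ds U (a * p.1 + b, p.2) := by
  induction ds with
  | nil => simp [mixedDeriv]
  | cons d ds ih =>
    funext p
    rw [mixedDeriv_cons, ih]
    have h1 := (mixedDeriv_contDiff hU ds).differentiable (by simp) (a * p.1 + b, p.2)
    have hA : HasFDerivAt (fun p : ℝ × (Fin 3 → ℝ) => ((a * p.1 + b, p.2) : ℝ × (Fin 3 → ℝ)))
        ((a • ContinuousLinearMap.fst ℝ ℝ (Fin 3 → ℝ)).prod (ContinuousLinearMap.snd ℝ ℝ (Fin 3 → ℝ))) p := by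
      apply HasFDerivAt.prodMk
      · exact (hasFDerivAt_fst.const_mul a).add_const b
      · exact hasFDerivAt_snd
    have h2 := (h1.hasFDerivAt.comp p hA).const_smul (a * a ^ (ds.count 0))
    simp only [Function.comp_def] at h2
    have h3 := h2.fderiv
    rw [show (fun p : ℝ × (Fin 3 → ℝ) => (a * a ^ (ds.count 0)) • mixedDeriv ds U (a * p.1 + b, p.2)) = 
      (a * a ^ (ds.count 0)) • (fun p : ℝ × (Fin 3 → ℝ) => mixedDeriv ds U (a * p.1 + b, p.2)) from rfl, h3]
    refine Fin.cases ?_ (fun k => ?_) d
    · rw [List.count_cons_self, pow_succ]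
      simp only [smul_apply, ContinuousLinearMap.comp_apply, mixedDeriv_cons]
      have : ((a • ContinuousLinearMap.fst ℝ ℝ (Fin 3 → ℝ)).prod
        (ContinuousLinearMap.snd ℝ ℝ (Fin 3 → ℝ))) (direction 0) = a • direction 0 := by
        rw [direction_zero]; ext <;> simp
      rw [this, map_smul, smul_smul]
      ring_nf
    · rw [List.count_cons_of_ne (Fin.succ_ne_zero k)]
      simp only [smul_apply, ContinuousLinearMap.comp_apply, mixedDeriv_cons]
      have : ((a • ContinuousLinearMap.fst ℝ ℝ (Fin 3 → ℝ)).prod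
        (ContinuousLinearMap.snd ℝ ℝ (Fin 3 → ℝ))) (direction k.succ) = direction k.succ := by
        rw [direction_succ]; ext <;> simp
      rw [this]

/-! ### Effectiveness -/

theorem computable_finPi {α σ : Type*} [Primcodable α] [Primcodable σ] {n : ℕ} {f : Fin n → α → σ}
    (hf : ∀ i, Computable (f i)) : Computable (fun a => (fun i => f i a : Fin n → σ)) := by
  refine ((Primrec.vector_get' (α := σ) (n := n)).to_comp.comp (Computable.vector_ofFn hf)).of_eq ?_
  intro a
  funext i
  simp

theorem computable_proj {α σ : Type*} [Primcodable α] [Primcodable σ] {n : ℕ} {f : α → Fin n → σ}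
    (hf : Computable f) (i : Fin n) : Computable (fun a => f a i) :=
  (Computable.fin_app (σ := σ) (n := n)).comp hf (Computable.const i)

theorem effective_of {U : Field}
    (h : ∀ j, CompFam (fun a : List (Fin 4) × (ℚ × (Fin 3 → ℚ)) =>
      mixedDeriv a.1 U ((a.2.1 : ℝ), ratPoint a.2.2) j))
    (hb : ∃ B : List (Fin 4) → ℕ, Computable B ∧ ∀ ds p j, |mixedDeriv ds U p j| ≤ (B ds : ℝ)) :
    Effective U := by
  choose E hE hE' using h
  obtain ⟨B, hB, hB'⟩ := hb
  refine ⟨fun x => fun j => E j (x.1, x.2.1) x.2.2, B, ?_, hB, ?_, hB'⟩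
  · apply computable_finPi (f := fun j (x : List (Fin 4) × (ℚ × (Fin 3 → ℚ)) × ℕ) => E j (x.1, x.2.1) x.2.2)
    intro j
    have h1 : Computable (fun x : List (Fin 4) × (ℚ × (Fin 3 → ℚ)) × ℕ => (x.1, x.2.1)) :=
      Computable.fst.pair (Computable.fst.comp Computable.snd)
    exact (hE j).comp h1 (Computable.snd.comp Computable.snd)
  · intro ds t q n j
    exact hE' j (ds, (t, q)) n

theorem effective_compFam {U : Field} (h : Effective U) (j : Fin 3) :
    CompFam (fun a : List (Fin 4) × (ℚ × (Fin 3 → ℚ)) =>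
      mixedDeriv a.1 U ((a.2.1 : ℝ), ratPoint a.2.2) j) := by
  obtain ⟨E, B, hE, hB, h1, h2⟩ := h
  refine ⟨fun a n => E (a.1, a.2, n) j, ?_, ?_⟩
  · have h3 : Computable (fun x : (List (Fin 4) × (ℚ × (Fin 3 → ℚ))) × ℕ => (x.1.1, x.1.2, x.2)) :=
      (Computable.fst.comp Computable.fst).pair ((Computable.snd.comp Computable.fst).pair Computable.snd)
    exact computable_proj (hE.comp h3) j
  · intro a n
    exact h1 a.1 a.2.1 a.2.2 n j

theorem effective_bound {U : Field} (h : Effective U) :
    ∃ B : List (Fin 4) → ℕ, Computable B ∧ ∀ ds p j, |mixedDeriv ds U p j| ≤ (B ds : ℝ) := by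
  obtain ⟨E, B, hE, hB, h1, h2⟩ := h
  exact ⟨B, hB, h2⟩

theorem computable_count {α : Type*} [Primcodable α] [DecidableEq α] (i : α) :
    Computable (fun l : List α => l.count i) := by
  have h1 : PrimrecPred (fun a : α => a = i) := Primrec.eq.comp Primrec.id (Primrec.const i)
  have h2 := Primrec.list_length.comp (Primrec.listFilter h1)
  refine (h2.to_comp).of_eq ?_
  intro l
  rw [List.count_eq_length_filter]
  congr 1
  
theorem computable_natMul : Computable₂ (fun a b : ℕ => a * b) := Primrec.nat_mul.to_comp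

theorem compFam_zero {α : Type*} [Primcodable α] : CompFam (fun _ : α => (0 : ℝ)) := by
  have := CompFam.of_rat (α := α) (Computable.const (0 : ℚ))
  simpa using this

theorem effective_TF {k : Fin 3} {g : Fin 4 → ℝ → ℝ} (hg : ∀ i, Eff1 (g i)) : Effective (TF k g) := by
  have hs : ∀ i, ContDiff ℝ ∞ (g i) := fun i => (hg i).smooth
  have hcomp : ∀ i, CompFam (fun a : ℕ × ℚ => iteratedDeriv a.1 (g i) (a.2 : ℝ)) := fun i => (hg i).comp
  choose B hBc hB using fun i => (hg i).bdd
  apply effective_of
  · intro j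
    simp only [mixedDeriv_TF hs, TF]
    by_cases hj : j = k
    · subst hj
      simp only [Pi.single_eq_same, T]
      have c0 : Computable (fun a : List (Fin 4) × (ℚ × (Fin 3 → ℚ)) => (a.1.count 0, a.2.1)) :=
        ((computable_count 0).comp Computable.fst).pair (Computable.fst.comp Computable.snd)
      have ck : ∀ l : Fin 3, Computable
          (fun a : List (Fin 4) × (ℚ × (Fin 3 → ℚ)) => (a.1.count l.succ, a.2.2 l)) := fun l =>
        ((computable_count l.succ).comp Computable.fst).pair
          (computable_proj (Computable.snd.comp Computable.snd) l)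
      have m0 := (hcomp 0).comp c0
      have mk := fun l : Fin 3 => (hcomp l.succ).comp (ck l)
      refine (m0.mul (((mk 0).mul (mk 1)).mul (mk 2))).congr ?_
      intro a
      rw [Fin.prod_univ_three]
      rfl
    · simp only [Pi.single_eq_of_ne hj]
      exact compFam_zero
  · refine ⟨fun ds => B 0 (ds.count 0) * ((B 1 (ds.count 1) * B 2 (ds.count 2)) * B 3 (ds.count 3)), ?_, ?_⟩
    · have c : ∀ i, Computable (fun ds : List (Fin 4) => B i (ds.count i)) := fun i =>
        (hBc i).comp (computable_count i)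
      exact computable_natMul.comp (c 0)
        (computable_natMul.comp (computable_natMul.comp (c 1) (c 2)) (c 3))
    · intro ds p j
      rw [mixedDeriv_TF hs]
      have hb := fun i x => hB i (ds.count i) x
      have : |T (fun i => iteratedDeriv (ds.count i) (g i)) p| ≤
          ((B 0 (ds.count 0) * ((B 1 (ds.count 1) * B 2 (ds.count 2)) * B 3 (ds.count 3)) : ℕ) : ℝ) := by
        rw [T, Fin.prod_univ_three]
        push_cast
        rw [abs_mul, abs_mul, abs_mul]
        exact mul_le_mul (hb 0 _) (mul_le_mul (mul_le_mul (hb 1 _) (hb 2 _) (abs_nonneg _) (by positivity))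
          (hb 3 _) (abs_nonneg _) (by positivity)) (by positivity) (by positivity)
      by_cases hj : j = k
      · subst hj
        simpa [TF] using this
      · simp only [TF, Pi.single_eq_of_ne hj]
        simp only [abs_zero]
        positivity

theorem effective_add {U V : Field} (hU : ContDiff ℝ ∞ U) (hV : ContDiff ℝ ∞ V) (eU : Effective U)
    (eV : Effective V) : Effective (fun p => U p + V p) := by
  obtain ⟨B, hBc, hB⟩ := effective_bound eU
  obtain ⟨C, hCc, hC⟩ := effective_bound eV
  apply effective_of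
  · intro j
    simp only [mixedDeriv_add hU hV, Pi.add_apply]
    exact (effective_compFam eU j).add (effective_compFam eV j)
  · refine ⟨fun ds => B ds + C ds, ?_, ?_⟩
    · exact Primrec.nat_add.to_comp.comp hBc hCc
    · intro ds p j
      rw [mixedDeriv_add hU hV]
      simp only [Pi.add_apply]
      push_cast
      exact (abs_add_le _ _).trans (add_le_add (hB _ _ _) (hC _ _ _))

theorem effective_rescale {U : Field} (hU : ContDiff ℝ ∞ U) (eU : Effective U) (a b : ℚ) :
    Effective (fun p => (a : ℝ) • U ((a : ℝ) * p.1 + b, p.2)) := by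
  obtain ⟨B, hBc, hB⟩ := effective_bound eU
  have hcount := computable_count (0 : Fin 4)
  apply effective_of
  · intro j
    simp only [mixedDeriv_rescale hU]
    have h1 : Computable (fun x : List (Fin 4) × (ℚ × (Fin 3 → ℚ)) => a * a ^ (x.1.count 0)) := by
      have := (Lib.RatPrimrec.rat_pow.to_comp).comp (Computable.const a)
        (hcount.comp (Computable.fst (α := List (Fin 4)) (β := ℚ × (Fin 3 → ℚ))))
      exact (Lib.RatPrimrec.rat_mul.to_comp).comp (Computable.const a) this
    have h2 : Computable (fun x : List (Fin 4) × (ℚ × (Fin 3 → ℚ)) => (x.1, (a * x.2.1 + b, x.2.2))) := by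
      refine Computable.fst.pair (Computable.pair ?_ (Computable.snd.comp Computable.snd))
      refine (Lib.RatPrimrec.rat_add.to_comp).comp ?_ (Computable.const b)
      exact (Lib.RatPrimrec.rat_mul.to_comp).comp (Computable.const a) (Computable.fst.comp Computable.snd)
    refine ((CompFam.of_rat h1).mul ((effective_compFam eU j).comp h2)).congr ?_
    intro x
    simp
  · refine ⟨fun ds => (a.num.natAbs * a.num.natAbs ^ (ds.count 0)) * B ds, ?_, ?_⟩
    · have hpow : Computable (fun ds : List (Fin 4) => a.num.natAbs ^ (ds.count 0)) := by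
        have h0 : Primrec₂ (fun (x y : ℕ) => x ^ y) := Primrec₂.unpaired'.1 Nat.Primrec.pow
        exact h0.to_comp.comp (Computable.const _) hcount
      exact computable_natMul.comp (computable_natMul.comp (Computable.const _) hpow) hBc
    · intro ds p j
      rw [mixedDeriv_rescale hU]
      simp only [Pi.smul_apply, smul_eq_mul]
      have ha : |(a : ℝ)| ≤ (a.num.natAbs : ℝ) := by
        have h1 : |a| ≤ (a.num.natAbs : ℚ) := by
          conv_lhs => rw [← Rat.num_div_den a]
          rw [abs_div, Nat.cast_natAbs, Int.cast_abs]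
          apply div_le_self (abs_nonneg _)
          rw [Nat.abs_cast]
          exact_mod_cast a.den_pos
        exact_mod_cast h1
      rw [abs_mul, abs_mul, abs_pow]
      push_cast
      gcongr
      exact hB _ _ _

theorem mixedDeriv_zero (ds : List (Fin 4)) : mixedDeriv ds (fun _ => 0) = fun _ => 0 := by
  induction ds with
  | nil => rfl
  | cons d ds ih =>
    funext p
    rw [mixedDeriv_cons, ih]
    simp

theorem effective_zero : Effective (fun _ => 0) := by
  apply effective_of
  · intro j
    simp only [mixedDeriv_zero, Pi.zero_apply]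
    exact compFam_zero
  · refine ⟨fun _ => 0, Computable.const 0, ?_⟩
    intro ds p j
    simp [mixedDeriv_zero]

end Crest.Agent.R126
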