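/- R126 (S0170): elementary fields and their flows. -/
import Mathlib
import Crest.Agent.R126.Defs
import Crest.Agent.R126.Comp
import Crest.Agent.R126.Tensor
import Crest.Agent.R126.Flow

set_option autoImplicit false
open scoped ContDiff Topology
open Crest.AnalysisR.BoxFlow

namespace Crest.Agent.R126

/-- time profile: derivative of `t ↦ stp (2 t - 1/2)`, times a constant. -/
noncomputable def prof (c : ℝ) (t : ℝ) : ℝ :=
  c * deriv (fun s => stp (((2 : ℚ) : ℝ) * s + ((-1 / 2 : ℚ) : ℝ))) t

/-- Elementary field with stream function `f j (x j) * f j' (x j') * f j'' (x j'')`, in the `(j,j')`-plane. -/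
noncomputable def elemField (c : ℝ) (f : Fin 3 → ℝ → ℝ) (j j' : Fin 3) : Field := fun p =>
  TF j (Fin.cons (prof c) (Function.update f j' (deriv (f j')))) p +
    TF j' (Fin.cons (prof (-c)) (Function.update f j (deriv (f j)))) p

theorem prof_eff {c : ℝ} (hc : CompReal c) : Eff1 (prof c) :=
  ((Eff1.stp.comp_affine 2 (-1 / 2)).deriv).const_mul hc

theorem CompReal.neg {c : ℝ} (hc : CompReal c) : CompReal (-c) := CompFam.neg hc

theorem hasDerivAt_sigma (t : ℝ) :
    HasDerivAt (fun s => stp (((2 : ℚ) : ℝ) * s + ((-1 / 2 : ℚ) : ℝ)))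
      (deriv (fun s => stp (((2 : ℚ) : ℝ) * s + ((-1 / 2 : ℚ) : ℝ))) t) t := by
  have h : ContDiff ℝ ∞ (fun s => stp (((2 : ℚ) : ℝ) * s + ((-1 / 2 : ℚ) : ℝ))) :=
    (Eff1.stp.comp_affine 2 (-1 / 2)).smooth
  exact (h.differentiable (by simp) t).hasDerivAt

theorem prof_eq_zero {c t : ℝ} (ht : t ∉ Set.Icc (1 / 4 : ℝ) (3 / 4)) : prof c t = 0 := by
  have : deriv (fun s => stp (((2 : ℚ) : ℝ) * s + ((-1 / 2 : ℚ) : ℝ))) t = 0 := by
    rw [Set.mem_Icc, not_and_or, not_le, not_le] at ht
    rcases ht with ht | ht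
    · have h : (fun s => stp (((2 : ℚ) : ℝ) * s + ((-1 / 2 : ℚ) : ℝ))) =ᶠ[𝓝 t] fun _ => (0 : ℝ) := by
        filter_upwards [Iio_mem_nhds ht] with s hs
        apply stp_of_nonpos
        have : s < 1 / 4 := hs
        push_cast
        linarith
      rw [h.deriv_eq]
      simp
    · have h : (fun s => stp (((2 : ℚ) : ℝ) * s + ((-1 / 2 : ℚ) : ℝ))) =ᶠ[𝓝 t] fun _ => (1 : ℝ) := by
        filter_upwards [Ioi_mem_nhds ht] with s hs
        apply stp_of_one_le
        have : 3 / 4 < s := hs
        push_cast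
        linarith
      rw [h.deriv_eq]
      simp
  rw [prof, this, mul_zero]

theorem prof_neg (c t : ℝ) : prof (-c) t = - prof c t := by
  simp [prof]

theorem elem_prod_eff {c : ℝ} (hc : CompReal c) {f : Fin 3 → ℝ → ℝ} (hf : ∀ i, Eff1 (f i)) (j : Fin 3) :
    ∀ i, Eff1 ((Fin.cons (prof c) (Function.update f j (deriv (f j))) : Fin 4 → ℝ → ℝ) i) := by
  intro i
  refine Fin.cases ?_ (fun k => ?_) i
  · simpa using prof_eff hc
  · rw [Fin.cons_succ]
    by_cases hk : k = j
    · subst hk
      simpa using (hf k).deriv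
    · rw [Function.update_of_ne hk]
      exact hf k

theorem T_cons_eq_zero_of {c : ℝ} {f : Fin 3 → ℝ → ℝ} {j : Fin 3} {p : ℝ × (Fin 3 → ℝ)} {l : Fin 3}
    (h0 : f l (p.2 l) = 0) (h1 : deriv (f l) (p.2 l) = 0) :
    T (Fin.cons (prof c) (Function.update f j (deriv (f j)))) p = 0 := by
  rw [T]
  apply mul_eq_zero_of_right
  apply Finset.prod_eq_zero (Finset.mem_univ l)
  rw [Fin.cons_succ]
  by_cases hk : l = j
  · subst hk
    simpa using h1
  · rw [Function.update_of_ne hk]
    exact h0

theorem elemField_eq_zero_of {c : ℝ} {f : Fin 3 → ℝ → ℝ} {j j' : Fin 3} {p : ℝ × (Fin 3 → ℝ)} {l : Fin 3}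
    (h0 : f l (p.2 l) = 0) (h1 : deriv (f l) (p.2 l) = 0) : elemField c f j j' p = 0 := by
  rw [elemField, TF, TF, T_cons_eq_zero_of h0 h1, T_cons_eq_zero_of h0 h1]
  simp

theorem elemField_time {c : ℝ} {f : Fin 3 → ℝ → ℝ} {j j' : Fin 3} (p : ℝ × (Fin 3 → ℝ))
    (hp : p.1 ∉ Set.Icc (1 / 4 : ℝ) (3 / 4)) : elemField c f j j' p = 0 := by
  rw [elemField, TF, TF, T, T]
  simp [prof_eq_zero hp]

theorem elemField_good {c : ℝ} (hc : CompReal c) {f : Fin 3 → ℝ → ℝ} (hf : ∀ i, Eff1 (f i))
    (hs : ∀ i, HasCompactSupport (f i)) {j j' : Fin 3} (hj : j ≠ j') : Good (elemField c f j j') := by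
  have e1 := elem_prod_eff hc hf j'
  have e2 := elem_prod_eff hc.neg hf j
  have s1 := fun i => (e1 i).smooth
  have s2 := fun i => (e2 i).smooth
  refine ⟨?_, ?_, ?_, elemField_time, ?_⟩
  · exact (TF_contDiff s1).add (TF_contDiff s2)
  · have hK : IsCompact (Set.Icc (1 / 4 : ℝ) (3 / 4) ×ˢ (Set.univ.pi fun l => tsupport (f l))) :=
      isCompact_Icc.prod (isCompact_univ_pi fun l => (hs l).isCompact)
    refine HasCompactSupport.intro hK ?_
    intro p hp
    rw [Set.mem_prod, not_and_or] at hp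
    rcases hp with hp | hp
    · exact elemField_time p hp
    · simp only [Set.mem_univ_pi, not_forall] at hp
      obtain ⟨l, hl⟩ := hp
      refine elemField_eq_zero_of (l := l) (image_eq_zero_of_notMem_tsupport hl) ?_
      exact image_eq_zero_of_notMem_tsupport (fun h => hl (tsupport_deriv_subset h))
  · exact effective_add (TF_contDiff s1) (TF_contDiff s2) (effective_TF e1) (effective_TF e2)
  · intro p
    have d1 := (TF_contDiff (k := j) s1).differentiable (by simp) p
    have d2 := (TF_contDiff (k := j') s2).differentiable (by simp) p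
    have h1 : fderiv ℝ (elemField c f j j') p = fderiv ℝ (TF j (Fin.cons (prof c) (Function.update f j' (deriv (f j'))))) p + fderiv ℝ (TF j' (Fin.cons (prof (-c)) (Function.update f j (deriv (f j))))) p := by
      unfold elemField
      exact fderiv_fun_add d1 d2
    rw [spaceDiv]
    simp only [← direction_succ, h1, add_apply, fderiv_TF s1, fderiv_TF s2, TF, Pi.add_apply]
    rw [Finset.sum_add_distrib, Finset.sum_eq_single j, Finset.sum_eq_single j']
    · simp only [Pi.single_eq_same, Fin.cons_succ, Function.update_of_ne hj, Function.update_of_ne hj.symm,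
        ← Fin.cons_update]
      rw [Function.update_comm hj]
      simp only [T, Fin.cons_zero, Fin.cons_succ, prof_neg]
      ring
    · intro l _ hl
      rw [Pi.single_eq_of_ne hl]
    · simp
    · intro l _ hl
      rw [Pi.single_eq_of_ne hl]
    · simp

/-! ### local form of the cutoffs -/

/-- `(x - c)` times the cutoff. -/
noncomputable def lcut (c h ε : ℚ) (x : ℝ) : ℝ := (((1 : ℚ) : ℝ) * x + ((-c : ℚ) : ℝ)) * cut c h ε x

theorem lcut_eff {c h ε : ℚ} (hh : 0 ≤ h) (hε : 0 < ε) : Eff1 (lcut c h ε) :=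
  (cut_eff c h ε).affine_mul (cut_compact hh hε) 1 (-c)

theorem lcut_compact {c h ε : ℚ} (hh : 0 ≤ h) (hε : 0 < ε) : HasCompactSupport (lcut c h ε) :=
  (cut_compact hh hε).mul_left

theorem mem_nhds_lt {c r : ℝ} {x : ℝ} (hx : |x - c| < r) : {y : ℝ | |y - c| < r} ∈ 𝓝 x :=
  (isOpen_lt (by fun_prop) continuous_const).mem_nhds hx

theorem mem_nhds_gt {c r : ℝ} {x : ℝ} (hx : r < |x - c|) : {y : ℝ | r < |y - c|} ∈ 𝓝 x :=
  (isOpen_lt continuous_const (by fun_prop)).mem_nhds hx

theorem cut_core {c h ε : ℚ} (hh : 0 ≤ h) (hε : 0 < ε) {x : ℝ} (hx : |x - c| < h + ε / 2) :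
    cut c h ε x = 1 ∧ deriv (cut c h ε) x = 0 := by
  refine ⟨cut_eq_one hh hε hx.le, ?_⟩
  have h : cut c h ε =ᶠ[𝓝 x] fun _ => (1 : ℝ) := by
    filter_upwards [mem_nhds_lt hx] with y hy
    exact cut_eq_one hh hε (le_of_lt hy)
  rw [h.deriv_eq]
  simp

theorem cut_out {c h ε : ℚ} (hh : 0 ≤ h) (hε : 0 < ε) {x : ℝ} (hx : (h : ℝ) + ε < |x - c|) :
    cut c h ε x = 0 ∧ deriv (cut c h ε) x = 0 := by
  refine ⟨cut_eq_zero hh hε hx.le, ?_⟩
  have h : cut c h ε =ᶠ[𝓝 x] fun _ => (0 : ℝ) := by
    filter_upwards [mem_nhds_gt hx] with y hy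
    exact cut_eq_zero hh hε (le_of_lt hy)
  rw [h.deriv_eq]
  simp

theorem lcut_core {c h ε : ℚ} (hh : 0 ≤ h) (hε : 0 < ε) {x : ℝ} (hx : |x - c| < h + ε / 2) :
    lcut c h ε x = x - c ∧ deriv (lcut c h ε) x = 1 := by
  have h : lcut c h ε =ᶠ[𝓝 x] fun y => y - (c : ℝ) := by
    filter_upwards [mem_nhds_lt hx] with y hy
    rw [lcut, cut_eq_one hh hε (le_of_lt hy)]
    push_cast
    ring
  refine ⟨h.eq_of_nhds, ?_⟩
  rw [h.deriv_eq]
  simp

theorem lcut_out {c h ε : ℚ} (hh : 0 ≤ h) (hε : 0 < ε) {x : ℝ} (hx : (h : ℝ) + ε < |x - c|) :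
    lcut c h ε x = 0 ∧ deriv (lcut c h ε) x = 0 := by
  have h : lcut c h ε =ᶠ[𝓝 x] fun _ => (0 : ℝ) := by
    filter_upwards [mem_nhds_gt hx] with y hy
    rw [lcut, cut_eq_zero hh hε (le_of_lt hy), mul_zero]
  refine ⟨h.eq_of_nhds, ?_⟩
  rw [h.deriv_eq]
  simp

/-- The family of one-variable factors: `lcut` for the indices in `s`, `cut` otherwise. -/
noncomputable def fac (s : Finset (Fin 3)) (A H : Fin 3 → ℚ) (ε : ℚ) (l : Fin 3) : ℝ → ℝ :=
  if l ∈ s then lcut (A l) (H l) ε else cut (A l) (H l) ε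

theorem fac_eff {s : Finset (Fin 3)} {A H : Fin 3 → ℚ} {ε : ℚ} (hH : ∀ l, 0 ≤ H l) (hε : 0 < ε) (l : Fin 3) :
    Eff1 (fac s A H ε l) := by
  unfold fac
  split_ifs
  · exact lcut_eff (hH l) hε
  · exact cut_eff _ _ _

theorem fac_compact {s : Finset (Fin 3)} {A H : Fin 3 → ℚ} {ε : ℚ} (hH : ∀ l, 0 ≤ H l) (hε : 0 < ε)
    (l : Fin 3) : HasCompactSupport (fac s A H ε l) := by
  unfold fac
  split_ifs
  · exact lcut_compact (hH l) hε
  · exact cut_compact (hH l) hε

theorem fac_out {s : Finset (Fin 3)} {A H : Fin 3 → ℚ} {ε : ℚ} (hH : ∀ l, 0 ≤ H l) (hε : 0 < ε)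
    {l : Fin 3} {x : ℝ} (hx : (H l : ℝ) + ε < |x - A l|) :
    fac s A H ε l x = 0 ∧ deriv (fac s A H ε l) x = 0 := by
  unfold fac
  split_ifs
  · exact lcut_out (hH l) hε hx
  · exact cut_out (hH l) hε hx

/-- Outside the support box nothing moves. -/
theorem fixed_outside {c : ℝ} (hc : CompReal c) {s : Finset (Fin 3)} {A H : Fin 3 → ℚ} {ε : ℚ}
    (hH : ∀ l, 0 ≤ H l) (hε : 0 < ε) {j j' : Fin 3} (hj : j ≠ j')
    {Φ : ℝ → (Fin 3 → ℝ) → (Fin 3 → ℝ)} (hΦ : IsFlow (elemField c (fac s A H ε) j j') Φ)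
    {x : Fin 3 → ℝ} (hx : x ∉ box A (fun l => H l + ε)) (t : ℝ) : Φ t x = x := by
  have hg := elemField_good hc (fac_eff (s := s) (A := A) hH hε) (fac_compact hH hε) hj
  apply IsFlow_const hg.smooth hg.compact hΦ
  intro t
  simp only [box, Set.mem_ofPred_eq, not_forall, not_le] at hx
  obtain ⟨l, hl⟩ := hx
  push_cast at hl
  have := fac_out (s := s) hH hε hl
  exact elemField_eq_zero_of (l := l) this.1 this.2

/-- Value of the field on the core, first product. -/
theorem T_cons_core {c : ℝ} {s : Finset (Fin 3)} {A H : Fin 3 → ℚ} {ε : ℚ} (hH : ∀ l, 0 ≤ H l) (hε : 0 < ε)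
    {t : ℝ} {x : Fin 3 → ℝ} (hx : ∀ l, |x l - A l| < H l + ε / 2) (j' : Fin 3) :
    T (Fin.cons (prof c) (Function.update (fac s A H ε) j' (deriv (fac s A H ε j')))) (t, x) =
      prof c t * (if j' ∈ s then 1 else 0) * ∏ l ∈ (s.erase j'), (x l - A l) := by
  rw [T, mul_assoc]
  simp only [Fin.cons_zero, Fin.cons_succ]
  congr 1
  rw [← Finset.mul_prod_erase Finset.univ _ (Finset.mem_univ j')]
  congr 1
  · rw [Function.update_self]
    unfold fac
    split_ifs
    · exact (lcut_core (hH _) hε (hx _)).2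
    · exact (cut_core (hH _) hε (hx _)).2
  · have : ∀ l ∈ Finset.univ.erase j', Function.update (fac s A H ε) j' (deriv (fac s A H ε j')) l (x l) =
        if l ∈ s then (x l - A l) else 1 := by
      intro l hl
      rw [Function.update_of_ne (Finset.ne_of_mem_erase hl)]
      unfold fac
      split_ifs
      · exact (lcut_core (hH _) hε (hx _)).1
      · exact (cut_core (hH _) hε (hx _)).1
    rw [Finset.prod_congr rfl this, Finset.prod_ite_mem]
    congr 1
    ext l
    simp

/-- time reparametrisation -/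
noncomputable def sig (t : ℝ) : ℝ := stp (((2 : ℚ) : ℝ) * t + ((-1 / 2 : ℚ) : ℝ))

theorem sig_zero : sig 0 = 0 := by
  unfold sig
  apply stp_of_nonpos
  norm_num

theorem sig_one : sig 1 = 1 := by
  unfold sig
  apply stp_of_one_le
  norm_num

theorem sig_nonneg (t : ℝ) : 0 ≤ sig t := stp_nonneg _
theorem sig_le_one (t : ℝ) : sig t ≤ 1 := stp_le_one _

theorem hasDerivAt_sig (c t : ℝ) : HasDerivAt (fun s => c * sig s) (prof c t) t :=
  (hasDerivAt_sigma t).const_mul c

/-- One translation move. -/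
theorem exists_translate (a h : Fin 3 → ℚ) (hh : ∀ l, 0 < h l) (j : Fin 3) (w ε : ℚ) (hε : 0 < ε) :
    ∃ (U : Field) (Φ : ℝ → (Fin 3 → ℝ) → (Fin 3 → ℝ)), Good U ∧ IsFlow U Φ ∧
      (∀ x, x ∉ box (Function.update a j (a j + w / 2)) (fun l => Function.update h j (h j + |w| / 2) l + ε) →
        Φ 1 x = x) ∧
      ∃ O : Set (Fin 3 → ℝ), IsOpen O ∧ box a h ⊆ O ∧ ∀ x ∈ O, Φ 1 x = Function.update x j (x j + w) := by
  obtain ⟨j', hj'⟩ : ∃ j' : Fin 3, j ≠ j' := by
    obtain ⟨j', h⟩ := exists_ne j
    exact ⟨j', h.symm⟩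
  set A : Fin 3 → ℚ := Function.update a j (a j + w / 2) with hA
  set H : Fin 3 → ℚ := Function.update h j (h j + |w| / 2) with hH
  have hH0 : ∀ l, 0 ≤ H l := by
    intro l
    by_cases hl : l = j
    · subst hl
      rw [hH, Function.update_self]
      have := hh l
      positivity
    · rw [hH, Function.update_of_ne hl]
      exact (hh l).le
  have hg := elemField_good (CompReal.rat w) (fac_eff (s := {j'}) (A := A) hH0 hε)
    (fac_compact hH0 hε) hj'
  obtain ⟨Φ, hΦ⟩ := exists_flow hg.smooth hg.compact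
  refine ⟨_, Φ, hg, hΦ, fun x hx => fixed_outside (CompReal.rat w) hH0 hε hj' hΦ hx 1, ?_⟩
  refine ⟨{x | ∀ l, |x l - a l| < h l + ε / 2}, ?_, ?_, ?_⟩
  · have : {x : Fin 3 → ℝ | ∀ l, |x l - a l| < h l + ε / 2} =
        ⋂ l, {x : Fin 3 → ℝ | |x l - a l| < h l + ε / 2} := by ext; simp
    rw [this]
    exact isOpen_iInter_of_finite fun l => isOpen_lt (by fun_prop) continuous_const
  · intro x hx l
    have h1 : |x l - a l| ≤ h l := hx l
    have h2 : (0 : ℝ) < ε := by exact_mod_cast hε
    linarith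
  · intro x hx
    have hε' : (0 : ℝ) < ε := by exact_mod_cast hε
    have hγ : ∀ t, HasDerivAt (fun t => Function.update x j (x j + w * sig t))
        (elemField w (fac {j'} A H ε) j j' (t, Function.update x j (x j + w * sig t))) t := by
      intro t
      have hcore : ∀ l, |(Function.update x j (x j + w * sig t)) l - A l| < H l + ε / 2 := by
        intro l
        by_cases hl : l = j
        · subst hl
          rw [Function.update_self, hA, hH, Function.update_self, Function.update_self]
          push_cast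
          have h1 := hx l
          have h2 : |(w : ℝ) * (sig t - 1 / 2)| ≤ |(w : ℝ)| * (1 / 2) := by
            rw [abs_mul]
            apply mul_le_mul_of_nonneg_left _ (abs_nonneg _)
            rw [abs_le]
            constructor <;> linarith [sig_nonneg t, sig_le_one t]
          have h3 : x l + w * sig t - (a l + w / 2) = (x l - a l) + w * (sig t - 1 / 2) := by ring
          rw [h3]
          calc |(x l - a l) + w * (sig t - 1 / 2)| ≤ |x l - a l| + |w * (sig t - 1 / 2)| := abs_add_le _ _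
            _ < h l + |(w : ℝ)| / 2 + ε / 2 := by linarith
        · rw [Function.update_of_ne hl, hA, hH, Function.update_of_ne hl, Function.update_of_ne hl]
          exact hx l
      have e1 := T_cons_core (c := (w : ℝ)) (t := t) (s := {j'}) hH0 hε hcore j'
      have e2 := T_cons_core (c := (-w : ℝ)) (t := t) (s := {j'}) hH0 hε hcore j
      rw [elemField, TF, TF, e1, e2]
      simp only [Finset.mem_singleton, if_true, hj', if_false, Finset.erase_singleton, Finset.prod_empty,
        mul_one, mul_zero, zero_mul, Pi.single_zero, add_zero]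
      rw [hasDerivAt_pi]
      intro l
      by_cases hl : l = j
      · subst hl
        simp only [Function.update_self, Pi.single_eq_same]
        exact (hasDerivAt_sig w t).const_add (x l)
      · simp only [Function.update_of_ne hl, Pi.single_eq_of_ne hl]
        exact hasDerivAt_const _ _
    have := IsFlow_eq hg.smooth hg.compact hΦ hγ 1
    simp only [sig_zero, sig_one, mul_zero, add_zero, mul_one, Function.update_eq_self] at this
    exact this

/-- One reshaping move. -/
theorem exists_reshape (a h : Fin 3 → ℚ) (hh : ∀ l, 0 < h l) (j j' : Fin 3) (hj : j ≠ j') (lam ρ ε : ℚ)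
    (hlam : 0 < lam) (hε : 0 < ε) (hρ : ∀ l, h l ≤ ρ) (hρ1 : lam * h j ≤ ρ) (hρ2 : h j' / lam ≤ ρ) :
    ∃ (U : Field) (Φ : ℝ → (Fin 3 → ℝ) → (Fin 3 → ℝ)), Good U ∧ IsFlow U Φ ∧
      (∀ x, x ∉ box a (fun _ => ρ + ε) → Φ 1 x = x) ∧
      ∃ O : Set (Fin 3 → ℝ), IsOpen O ∧ box a h ⊆ O ∧ ∀ x ∈ O, Φ 1 x =
        Function.update (Function.update x j ((a j : ℝ) + lam * (x j - a j))) j'
          ((a j' : ℝ) + (x j' - a j') / lam) := by
  have hρ0 : 0 ≤ ρ := (hh 0).le.trans (hρ 0)
  have hH0 : ∀ l : Fin 3, 0 ≤ (fun _ => ρ : Fin 3 → ℚ) l := fun _ => hρ0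
  have hcr := CompReal.log lam hlam
  have hg := elemField_good hcr (fac_eff (s := {j, j'}) (A := a) hH0 hε)
    (fac_compact hH0 hε) hj
  obtain ⟨Φ, hΦ⟩ := exists_flow hg.smooth hg.compact
  refine ⟨_, Φ, hg, hΦ, fun x hx => fixed_outside hcr hH0 hε hj hΦ hx 1, ?_⟩
  have hε' : (0 : ℝ) < ε := by exact_mod_cast hε
  have hlam' : (0 : ℝ) < lam := by exact_mod_cast hlam
  set c : ℝ := Real.log lam with hc
  -- exponential bounds
  have hexp1 : ∀ t, Real.exp (c * sig t) ≤ max 1 (lam : ℝ) := by
    intro t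
    rcases le_total 0 c with h0 | h0
    · apply le_max_of_le_right
      calc Real.exp (c * sig t) ≤ Real.exp (c * 1) :=
            Real.exp_le_exp.mpr (mul_le_mul_of_nonneg_left (sig_le_one t) h0)
        _ = lam := by rw [mul_one, hc, Real.exp_log hlam']
    · apply le_max_of_le_left
      rw [Real.exp_le_one_iff]
      exact mul_nonpos_of_nonpos_of_nonneg h0 (sig_nonneg t)
  have hexp2 : ∀ t, Real.exp (-c * sig t) ≤ max 1 (1 / (lam : ℝ)) := by
    intro t
    rcases le_total 0 c with h0 | h0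
    · apply le_max_of_le_left
      rw [Real.exp_le_one_iff]
      exact mul_nonpos_of_nonpos_of_nonneg (by linarith) (sig_nonneg t)
    · apply le_max_of_le_right
      calc Real.exp (-c * sig t) ≤ Real.exp (-c * 1) :=
            Real.exp_le_exp.mpr (mul_le_mul_of_nonneg_left (sig_le_one t) (by linarith))
        _ = 1 / lam := by rw [mul_one, Real.exp_neg, hc, Real.exp_log hlam', one_div]
  set M : ℝ := max (max 1 (lam : ℝ)) (max 1 (1 / (lam : ℝ))) with hM
  have hM1 : 1 ≤ M := le_max_of_le_left (le_max_left _ _)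
  have hM0 : 0 < M := by linarith
  set δ : ℝ := ε / 2 / M with hδ
  have hδ0 : 0 < δ := by positivity
  refine ⟨{x | ∀ l, |x l - a l| < h l + δ}, ?_, ?_, ?_⟩
  · have : {x : Fin 3 → ℝ | ∀ l, |x l - a l| < h l + δ} =
        ⋂ l, {x : Fin 3 → ℝ | |x l - a l| < h l + δ} := by ext; simp
    rw [this]
    exact isOpen_iInter_of_finite fun l => isOpen_lt (by fun_prop) continuous_const
  · intro x hx l
    have h1 : |x l - a l| ≤ h l := hx l
    linarith
  · intro x hx
    have hMδ : M * δ = ε / 2 := by rw [hδ]; field_simp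
    have key : ∀ (m y hl : ℝ), 0 ≤ m → m ≤ M → m * hl ≤ ρ → |y| < hl + δ → |m * y| < ρ + ε / 2 := by
      intro m y hl hm0 hmM hmh hy
      rw [abs_mul, abs_of_nonneg hm0]
      rcases hm0.eq_or_lt with h0 | h0
      · rw [← h0, zero_mul]
        have : (0 : ℝ) ≤ ρ := by exact_mod_cast hρ0
        linarith
      · calc m * |y| < m * (hl + δ) := mul_lt_mul_of_pos_left hy h0
          _ = m * hl + m * δ := by ring
          _ ≤ ρ + M * δ := add_le_add hmh (mul_le_mul_of_nonneg_right hmM hδ0.le)
          _ = ρ + ε / 2 := by rw [hMδ]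
    have hhj : (0 : ℝ) < h j := by exact_mod_cast hh j
    have hhj' : (0 : ℝ) < h j' := by exact_mod_cast hh j'
    have hρr : ∀ l, (h l : ℝ) ≤ ρ := fun l => by exact_mod_cast hρ l
    have b1 : ∀ t, Real.exp (c * sig t) * h j ≤ ρ := by
      intro t
      calc Real.exp (c * sig t) * h j ≤ max 1 (lam : ℝ) * h j :=
            mul_le_mul_of_nonneg_right (hexp1 t) hhj.le
        _ = max (1 * (h j : ℝ)) (lam * h j) := max_mul_of_nonneg _ _ hhj.le
        _ ≤ ρ := max_le (by rw [one_mul]; exact hρr j) (by exact_mod_cast hρ1)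
    have b2 : ∀ t, Real.exp (-c * sig t) * h j' ≤ ρ := by
      intro t
      calc Real.exp (-c * sig t) * h j' ≤ max 1 (1 / (lam : ℝ)) * h j' :=
            mul_le_mul_of_nonneg_right (hexp2 t) hhj'.le
        _ = max (1 * (h j' : ℝ)) (1 / lam * h j') := max_mul_of_nonneg _ _ hhj'.le
        _ ≤ ρ := max_le (by rw [one_mul]; exact hρr j') (by
            rw [one_div, inv_mul_eq_div]; exact_mod_cast hρ2)
    have hγ : ∀ t, HasDerivAt (fun t => Function.update
        (Function.update x j ((a j : ℝ) + Real.exp (c * sig t) * (x j - a j))) j'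
          ((a j' : ℝ) + Real.exp (-c * sig t) * (x j' - a j')))
        (elemField c (fac {j, j'} a (fun _ => ρ) ε) j j' (t, Function.update
        (Function.update x j ((a j : ℝ) + Real.exp (c * sig t) * (x j - a j))) j'
          ((a j' : ℝ) + Real.exp (-c * sig t) * (x j' - a j')))) t := by
      intro t
      have hcore : ∀ l, |(Function.update
        (Function.update x j ((a j : ℝ) + Real.exp (c * sig t) * (x j - a j))) j'
          ((a j' : ℝ) + Real.exp (-c * sig t) * (x j' - a j'))) l - a l| <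
            ((fun _ => ρ : Fin 3 → ℚ) l : ℝ) + ε / 2 := by
        intro l
        by_cases hl' : l = j'
        · subst hl'
          rw [Function.update_self, add_sub_cancel_left]
          exact key _ _ (h l) (Real.exp_pos _).le
            ((hexp2 t).trans (le_max_right _ _)) (b2 t) (hx l)
        · rw [Function.update_of_ne hl']
          by_cases hl : l = j
          · subst hl
            rw [Function.update_self, add_sub_cancel_left]
            exact key _ _ (h l) (Real.exp_pos _).le
              ((hexp1 t).trans (le_max_left _ _)) (b1 t) (hx l)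
          · rw [Function.update_of_ne hl]
            have := key 1 (x l - a l) (h l) zero_le_one hM1 (by rw [one_mul]; exact hρr l) (hx l)
            rwa [one_mul] at this
      have e1 := T_cons_core (c := c) (t := t) (s := {j, j'}) hH0 hε hcore j'
      have e2 := T_cons_core (c := -c) (t := t) (s := {j, j'}) hH0 hε hcore j
      have er1 : ({j, j'} : Finset (Fin 3)).erase j' = {j} := by
        ext l
        simp only [Finset.mem_erase, Finset.mem_insert, Finset.mem_singleton]
        constructor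
        · rintro ⟨h1, h2 | h2⟩
          · exact h2
          · exact absurd h2 h1
        · rintro rfl
          exact ⟨hj, Or.inl rfl⟩
      have er2 : ({j, j'} : Finset (Fin 3)).erase j = {j'} := by
        ext l
        simp only [Finset.mem_erase, Finset.mem_insert, Finset.mem_singleton]
        constructor
        · rintro ⟨h1, h2 | h2⟩
          · exact absurd h2 h1
          · exact h2
        · rintro rfl
          exact ⟨hj.symm, Or.inr rfl⟩
      rw [elemField, TF, TF, e1, e2, er1, er2]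
      simp only [Finset.mem_insert, Finset.mem_singleton, or_true, true_or, if_true, Finset.prod_singleton,
        mul_one, Function.update_of_ne hj, Function.update_self, add_sub_cancel_left]
      rw [hasDerivAt_pi]
      intro l
      by_cases hl' : l = j'
      · subst hl'
        simp only [Function.update_self, Pi.add_apply, Pi.single_eq_same, Pi.single_eq_of_ne hj.symm, zero_add]
        have h1 := ((hasDerivAt_sig (-c) t).exp.mul_const (x l - a l)).const_add (a l : ℝ)
        refine h1.congr_deriv ?_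
        ring
      · by_cases hl : l = j
        · subst hl
          simp only [Function.update_of_ne hl', Function.update_self, Pi.add_apply, Pi.single_eq_same,
            Pi.single_eq_of_ne hl', add_zero]
          have h1 := ((hasDerivAt_sig c t).exp.mul_const (x l - a l)).const_add (a l : ℝ)
          refine h1.congr_deriv ?_
          ring
        · simp only [Function.update_of_ne hl', Function.update_of_ne hl, Pi.add_apply, Pi.single_eq_of_ne hl,
            Pi.single_eq_of_ne hl', add_zero]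
          exact hasDerivAt_const _ _
    have := IsFlow_eq hg.smooth hg.compact hΦ hγ 1
    simp only [sig_zero, sig_one, mul_zero, Real.exp_zero, one_mul, mul_one, add_sub_cancel,
      Function.update_eq_self] at this
    rw [this, Real.exp_neg, hc, Real.exp_log hlam', inv_mul_eq_div]

end Crest.Agent.R126
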