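/- R126 (S0170): combinatorics of configurations. Any relation that contains small single-box moves in one
   coordinate direction and reshapings of one box inside a big free box connects any two configurations. -/
import Mathlib
import Crest.Agent.R126.Defs

set_option autoImplicit false
open Crest.AnalysisR.BoxFlow

namespace Crest.Agent.R126

/-- Closure properties of a relation on configurations used in the path argument. -/
structure MoveRel {n : ℕ} (R : Cfg n → Cfg n → Prop) : Prop where
  refl : ∀ c : Cfg n, c.Pos → R c c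
  trans : ∀ c d e : Cfg n, c.Pos → d.Pos → e.Pos → R c d → R d e → R c e
  /-- translate box `i` by `w` in direction `j`; the `ε`-enlarged hull of the motion must be free. -/
  translate : ∀ (c : Cfg n) (i : Fin n) (j : Fin 3) (w ε : ℚ), c.Pos → 0 < ε →
    (∀ i', i' ≠ i → Disjoint
      (box (Function.update (c i).1 j ((c i).1 j + w / 2))
        (fun l => Function.update (c i).2 j ((c i).2 j + |w| / 2) l + ε))
      (box (c i').1 (c i').2)) →
    R c (Function.update c i (Function.update (c i).1 j ((c i).1 j + w), (c i).2))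
  /-- rescale box `i` by `lam` in direction `j` and `1/lam` in direction `j'`, inside a free cube. -/
  reshape : ∀ (c : Cfg n) (i : Fin n) (j j' : Fin 3) (lam ρ ε : ℚ), c.Pos → 0 < ε → j ≠ j' → 0 < lam →
    (∀ l, (c i).2 l ≤ ρ) → lam * (c i).2 j ≤ ρ → (c i).2 j' / lam ≤ ρ →
    (∀ i', i' ≠ i → Disjoint (box (c i).1 (fun _ => ρ + ε)) (box (c i').1 (c i').2)) →
    R c (Function.update c i ((c i).1,
      Function.update (Function.update (c i).2 j (lam * (c i).2 j)) j' ((c i).2 j' / lam)))

/-- separation in some coordinate implies disjointness. -/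
theorem disjoint_box_of_sep {a h a' h' : Fin 3 → ℚ} (j : Fin 3) (hj : h j + h' j < |a j - a' j|) :
    Disjoint (box a h) (box a' h') := by
  rw [Set.disjoint_left]
  intro x hx hx'
  have h1 := hx j
  have h2 := hx' j
  have h3 : (|(a j : ℝ) - (a' j : ℝ)|) ≤ (h j : ℝ) + (h' j : ℝ) := by
    have : (a j : ℝ) - (a' j : ℝ) = (x j - a' j) - (x j - a j) := by ring
    rw [this]
    refine (abs_sub _ _).trans ?_
    linarith
  have h4 : ((h j + h' j : ℚ) : ℝ) < ((|a j - a' j| : ℚ) : ℝ) := by exact_mod_cast hj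
  push_cast at h4
  linarith

/-- disjoint boxes are separated in some coordinate. -/
theorem sep_of_disjoint_box {a h a' h' : Fin 3 → ℚ} (hh : ∀ j, 0 ≤ h j) (hh' : ∀ j, 0 ≤ h' j)
    (hd : Disjoint (box a h) (box a' h')) : ∃ j, h j + h' j < |a j - a' j| := by
  by_contra hcon
  push Not at hcon
  rw [Set.disjoint_left] at hd
  refine hd (a := fun j => ((max (a j - h j) (a' j - h' j) : ℚ) : ℝ)) ?_ ?_
  · intro j
    have h1 := hcon j
    rw [abs_le] at h1
    have h2 : |max (a j - h j) (a' j - h' j) - a j| ≤ h j := by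
      rw [abs_le]
      constructor
      · have := le_max_left (a j - h j) (a' j - h' j); linarith
      · rw [sub_le_iff_le_add, max_le_iff]
        constructor
        · have := hh j; linarith
        · linarith [h1.1, h1.2]
    show |(((max (a j - h j) (a' j - h' j) : ℚ)) : ℝ) - ((a j : ℚ) : ℝ)| ≤ ((h j : ℚ) : ℝ)
    exact_mod_cast h2
  · intro j
    have h1 := hcon j
    rw [abs_le] at h1
    have h2 : |max (a j - h j) (a' j - h' j) - a' j| ≤ h' j := by
      rw [abs_le]
      constructor
      · have := le_max_right (a j - h j) (a' j - h' j); linarith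
      · rw [sub_le_iff_le_add, max_le_iff]
        constructor
        · linarith [h1.1, h1.2]
        · have := hh' j; linarith
    show |(((max (a j - h j) (a' j - h' j) : ℚ)) : ℝ) - ((a' j : ℚ) : ℝ)| ≤ ((h' j : ℚ) : ℝ)
    exact_mod_cast h2

/-- uniform `ε`. -/
theorem exists_eps {n : ℕ} (P : Fin n → ℚ → Prop) (hP : ∀ i, ∃ δ : ℚ, 0 < δ ∧ ∀ ε, 0 < ε → ε ≤ δ → P i ε) :
    ∃ ε : ℚ, 0 < ε ∧ ∀ i, P i ε := by
  choose δ hδ hP using hP
  by_cases hn : Nonempty (Fin n)
  · obtain ⟨i0, -, hi0⟩ := Finset.exists_min_image (Finset.univ : Finset (Fin n)) δ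
      ⟨hn.some, Finset.mem_univ _⟩
    exact ⟨δ i0, hδ i0, fun i => hP i _ (hδ i0) (hi0 i (Finset.mem_univ _))⟩
  · exact ⟨1, one_pos, fun i => (hn ⟨i⟩).elim⟩

/-- A convenient form of the translation move. -/
theorem MoveRel.translate' {n : ℕ} {R : Cfg n → Cfg n → Prop} (hR : MoveRel R) (c : Cfg n) (hc : c.Pos)
    (i : Fin n) (j : Fin 3) (b : ℚ)
    (hsep : ∀ i', i' ≠ i →
      (∃ l, l ≠ j ∧ (c i).2 l + (c i').2 l < |(c i).1 l - (c i').1 l|) ∨
      ((c i).2 j + |b - (c i).1 j| / 2 + (c i').2 j < |((c i).1 j + b) / 2 - (c i').1 j|)) :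
    R c (Function.update c i (Function.update (c i).1 j b, (c i).2)) := by
  have key : ∃ ε : ℚ, 0 < ε ∧ ∀ i', i' ≠ i → Disjoint
      (box (Function.update (c i).1 j ((c i).1 j + (b - (c i).1 j) / 2))
        (fun l => Function.update (c i).2 j ((c i).2 j + |b - (c i).1 j| / 2) l + ε))
      (box (c i').1 (c i').2) := by
    refine exists_eps _ ?_
    intro i'
    by_cases hi : i' = i
    · exact ⟨1, one_pos, fun ε _ _ h => absurd hi h⟩
    rcases hsep i' hi with ⟨l, hlj, hl⟩ | hl
    · refine ⟨(|(c i).1 l - (c i').1 l| - ((c i).2 l + (c i').2 l)) / 2, by linarith, ?_⟩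
      intro ε hε0 hε _
      refine disjoint_box_of_sep l ?_
      simp only [Function.update_of_ne hlj]
      linarith
    · refine ⟨(|((c i).1 j + b) / 2 - (c i').1 j| - ((c i).2 j + |b - (c i).1 j| / 2 + (c i').2 j)) / 2,
        by linarith, ?_⟩
      intro ε hε0 hε _
      refine disjoint_box_of_sep j ?_
      simp only [Function.update_self]
      have : (c i).1 j + (b - (c i).1 j) / 2 = ((c i).1 j + b) / 2 := by ring
      rw [this]
      linarith
  obtain ⟨ε, hε, h⟩ := key
  have := hR.translate c i j (b - (c i).1 j) ε hc hε h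
  simpa using this

/-- The reversed relation satisfies the same closure properties. -/
theorem MoveRel.reverse {n : ℕ} {R : Cfg n → Cfg n → Prop} (hR : MoveRel R) :
    MoveRel (fun c d => R d c) where
  refl := hR.refl
  trans := fun c d e hc hd he h1 h2 => hR.trans e d c he hd hc h2 h1
  translate := by
    intro c i j w ε hc hε h
    set c' : Cfg n := Function.update c i (Function.update (c i).1 j ((c i).1 j + w), (c i).2) with hc'
    have hci : c' i = (Function.update (c i).1 j ((c i).1 j + w), (c i).2) := by simp [hc']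
    have hci' : ∀ i', i' ≠ i → c' i' = c i' := fun i' hi => by simp [hc', Function.update_of_ne hi]
    have hpos : c'.Pos := by
      intro i' l
      by_cases hi : i' = i
      · subst hi; rw [hci]; exact hc _ _
      · rw [hci' _ hi]; exact hc _ _
    have := hR.translate c' i j (-w) ε hpos hε (by
      intro i' hi
      rw [hci, hci' _ hi]
      simp only [Function.update_self, Function.update_idem, abs_neg]
      have e1 : (c i).1 j + w + -w / 2 = (c i).1 j + w / 2 := by ring
      rw [e1]
      exact h i' hi)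
    have e2 : Function.update c' i (Function.update (c' i).1 j ((c' i).1 j + -w), (c' i).2) = c := by
      funext i'
      by_cases hi : i' = i
      · subst hi
        rw [Function.update_self, hci]
        simp
      · rw [Function.update_of_ne hi, hci' _ hi]
    rw [e2] at this
    exact this
  reshape := by
    intro c i j j' lam ρ ε hc hε hjj hlam h1 h2 h3 h
    set c' : Cfg n := Function.update c i ((c i).1,
      Function.update (Function.update (c i).2 j (lam * (c i).2 j)) j' ((c i).2 j' / lam)) with hc'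
    have hci : c' i = ((c i).1,
      Function.update (Function.update (c i).2 j (lam * (c i).2 j)) j' ((c i).2 j' / lam)) := by
      simp [hc']
    have hci' : ∀ i', i' ≠ i → c' i' = c i' := fun i' hi => by simp [hc', Function.update_of_ne hi]
    have hval : ∀ l, (c' i).2 l = if l = j' then (c i).2 j' / lam else if l = j then lam * (c i).2 j
        else (c i).2 l := by
      intro l
      rw [hci]
      simp only [Function.update_apply]
    have hpos : c'.Pos := by
      intro i' l
      by_cases hi : i' = i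
      · subst hi
        rw [hval]
        split_ifs
        · exact div_pos (hc _ _) hlam
        · exact mul_pos hlam (hc _ _)
        · exact hc _ _
      · rw [hci' _ hi]; exact hc _ _
    have hvj : (c' i).2 j = lam * (c i).2 j := by rw [hval]; simp [hjj]
    have hvj' : (c' i).2 j' = (c i).2 j' / lam := by rw [hval]; simp
    have hne : lam ≠ 0 := hlam.ne'
    have := hR.reshape c' i j j' lam⁻¹ ρ ε hpos hε hjj (inv_pos.2 hlam) (by
      intro l
      rw [hval]
      split_ifs
      · exact h3
      · exact h2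
      · exact h1 l) (by
      rw [hvj]
      rw [inv_mul_cancel_left₀ hne]
      exact h1 j) (by
      rw [hvj', div_inv_eq_mul, div_mul_cancel₀ _ hne]
      exact h1 j') (by
      intro i' hi
      rw [hci, hci' _ hi]
      exact h i' hi)
    have e2 : Function.update c' i ((c' i).1,
      Function.update (Function.update (c' i).2 j (lam⁻¹ * (c' i).2 j)) j' ((c' i).2 j' / lam⁻¹)) = c := by
      funext i'
      by_cases hi : i' = i
      · subst hi
        rw [Function.update_self, hvj, hvj', inv_mul_cancel_left₀ hne, div_inv_eq_mul,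
          div_mul_cancel₀ _ hne]
        refine Prod.ext ?_ ?_
        · simp [hci]
        · funext l
          simp only [Function.update_apply]
          rw [hval]
          split_ifs with h1 h2
          · rw [h1]
          · rw [h2]
          · rfl
      · rw [Function.update_of_ne hi, hci' _ hi]
    rw [e2] at this
    exact this

/-- Sequential moves: boxes are replaced one at a time, largest `σ`-rank first. -/
theorem MoveRel.seq {n : ℕ} {R : Cfg n → Cfg n → Prop} (hR : MoveRel R) (c d : Cfg n) (hc : c.Pos)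
    (hd : d.Pos) (σ : Equiv.Perm (Fin n))
    (hstep : ∀ i : Fin n, R (fun i' => if σ i < σ i' then d i' else c i')
      (Function.update (fun i' => if σ i < σ i' then d i' else c i') i (d i))) : R c d := by
  -- configuration after moving the boxes of rank `≥ m`
  let C : ℕ → Cfg n := fun m i' => if m ≤ (σ i' : ℕ) then d i' else c i'
  have hCpos : ∀ m, (C m).Pos := by
    intro m i' l
    by_cases h : m ≤ (σ i' : ℕ)
    · simp only [C, h, if_true]; exact hd _ _
    · simp only [C, h, if_false]; exact hc _ _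
  have hCn : C n = c := by
    funext i'
    have : ¬ n ≤ (σ i' : ℕ) := by have := (σ i').2; omega
    simp only [C, this, if_false]
  have hC0 : C 0 = d := by
    funext i'
    simp [C]
  have hsucc : ∀ m, m < n → R (C (m + 1)) (C m) := by
    intro m hm
    let i : Fin n := σ.symm ⟨m, hm⟩
    have hi : σ i = ⟨m, hm⟩ := by simp [i]
    have h1 := hstep i
    have e1 : (fun i' => if σ i < σ i' then d i' else c i') = C (m + 1) := by
      funext i'
      have : (σ i < σ i') ↔ m + 1 ≤ (σ i' : ℕ) := by
        rw [hi, Fin.lt_def]; exact Iff.rfl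
      simp only [C, this]
    rw [e1] at h1
    have e2 : Function.update (C (m + 1)) i (d i) = C m := by
      funext i'
      by_cases hi' : i' = i
      · subst hi'
        have : m ≤ (σ i : ℕ) := by rw [hi]
        simp only [Function.update_self, C, this, if_true]
      · rw [Function.update_of_ne hi']
        have hne : (σ i' : ℕ) ≠ m := by
          intro h
          apply hi'
          have : σ i' = ⟨m, hm⟩ := Fin.ext h
          rw [← σ.symm_apply_apply i', this]
        have : (m + 1 ≤ (σ i' : ℕ)) ↔ m ≤ (σ i' : ℕ) := by omega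
        simp only [C, this]
    rw [e2] at h1
    exact h1
  have hall : ∀ m, m ≤ n → R (C n) (C (n - m)) := by
    intro m
    induction m with
    | zero => intro _; simpa using hR.refl _ (hCpos n)
    | succ m ih =>
      intro hm
      have h1 := ih (by omega)
      have h2 := hsucc (n - (m + 1)) (by omega)
      have e : n - (m + 1) + 1 = n - m := by omega
      rw [e] at h2
      exact hR.trans _ _ _ (hCpos _) (hCpos _) (hCpos _) h1 h2
  have := hall n le_rfl
  rw [Nat.sub_self, hCn, hC0] at this
  exact this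

/-- Configuration with coordinate `j` of the centres replaced by `b`. -/
def Cfg.setC {n : ℕ} (c : Cfg n) (j : Fin 3) (b : Fin n → ℚ) : Cfg n :=
  fun i => (Function.update (c i).1 j (b i), (c i).2)

theorem Cfg.setC_pos {n : ℕ} {c : Cfg n} (hc : c.Pos) (j : Fin 3) (b : Fin n → ℚ) :
    (c.setC j b).Pos := fun i l => hc i l

/-- Moving coordinate `j` when everything is separated in another coordinate `l`. -/
theorem MoveRel.setC_of_sep {n : ℕ} {R : Cfg n → Cfg n → Prop} (hR : MoveRel R) (c : Cfg n) (hc : c.Pos)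
    (j l : Fin 3) (hlj : l ≠ j) (b : Fin n → ℚ)
    (hsep : ∀ i i', i' ≠ i → (c i).2 l + (c i').2 l < |(c i).1 l - (c i').1 l|) :
    R c (c.setC j b) := by
  refine hR.seq c (c.setC j b) hc (Cfg.setC_pos hc j b) (Equiv.refl _) ?_
  intro i
  set e : Cfg n := fun i' => if (Equiv.refl (Fin n)) i < (Equiv.refl (Fin n)) i' then c.setC j b i' else c i'
    with he
  have h1 : ∀ i', (e i').2 = (c i').2 := by
    intro i'; simp only [he]; split_ifs <;> rfl
  have h2 : ∀ i', (e i').1 l = (c i').1 l := by
    intro i'; simp only [he]; split_ifs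
    · simp [Cfg.setC, Function.update_of_ne hlj]
    · rfl
  have h3 : e i = c i := by simp [he]
  have hepos : e.Pos := fun i' l' => by rw [h1]; exact hc _ _
  have := hR.translate' e hepos i j (b i) (by
    intro i' hi
    left
    refine ⟨l, hlj, ?_⟩
    rw [h1, h1, h2, h2]
    exact hsep i i' hi)
  rw [h3] at this
  exact this

/-- Order preserving, distance non-decreasing move to the right in coordinate `j`. -/
theorem MoveRel.spread {n : ℕ} {R : Cfg n → Cfg n → Prop} (hR : MoveRel R) (c : Cfg n) (hc : c.Pos)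
    (hdisj : c.Disj) (j : Fin 3) (σ : Equiv.Perm (Fin n)) (b : Fin n → ℚ)
    (hσ : ∀ i i', σ i < σ i' → (c i).1 j ≤ (c i').1 j)
    (hb : ∀ i, (c i).1 j ≤ b i)
    (hbb : ∀ i i', σ i < σ i' → (c i').1 j - (c i).1 j ≤ b i' - b i) :
    R c (c.setC j b) := by
  refine hR.seq c (c.setC j b) hc (Cfg.setC_pos hc j b) σ ?_
  intro i
  set e : Cfg n := fun i' => if σ i < σ i' then c.setC j b i' else c i' with he
  have h1 : ∀ i', (e i').2 = (c i').2 := by
    intro i'; simp only [he]; split_ifs <;> rfl
  have h2 : ∀ i' l, l ≠ j → (e i').1 l = (c i').1 l := by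
    intro i' l hl; simp only [he]; split_ifs
    · simp [Cfg.setC, Function.update_of_ne hl]
    · rfl
  have h3 : e i = c i := by simp [he]
  have hepos : e.Pos := fun i' l' => by rw [h1]; exact hc _ _
  have := hR.translate' e hepos i j (b i) (by
    intro i' hi
    obtain ⟨l, hl⟩ := sep_of_disjoint_box (fun j => (hc i j).le) (fun j => (hc i' j).le)
      (hdisj (Ne.symm hi))
    by_cases hlj : l = j
    · right
      subst hlj
      rw [h1, h1, h3]
      have hbi := hb i
      rw [abs_of_nonneg (sub_nonneg.2 hbi)]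
      rcases lt_trichotomy (σ i) (σ i') with hlt | heq | hgt
      · have e1 : (e i').1 l = b i' := by simp [he, hlt, Cfg.setC]
        rw [e1]
        have h4 := hσ i i' hlt
        have h5 := hbb i i' hlt
        rw [abs_sub_comm, abs_of_nonneg (sub_nonneg.2 h4)] at hl
        rw [abs_sub_comm]
        refine lt_of_lt_of_le ?_ (le_abs_self _)
        linarith
      · exact absurd (σ.injective heq).symm hi
      · have e1 : e i' = c i' := by simp [he, not_lt.2 hgt.le]
        rw [e1]
        have h4 := hσ i' i hgt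
        rw [abs_of_nonneg (sub_nonneg.2 h4)] at hl
        refine lt_of_lt_of_le ?_ (le_abs_self _)
        linarith
    · left
      refine ⟨l, hlj, ?_⟩
      rw [h1, h1, h2 _ _ hlj, h2 _ _ hlj]
      exact hl)
  rw [h3] at this
  exact this

/-- Every configuration can be moved, in coordinate `0` only, so that all boxes are `L`-far apart. -/
theorem MoveRel.exists_spread {n : ℕ} {R : Cfg n → Cfg n → Prop} (hR : MoveRel R) (c : Cfg n) (hc : c.Pos)
    (hdisj : c.Disj) (L : ℚ) (hL : 0 ≤ L) :
    ∃ b : Fin n → ℚ, (∀ i i', i' ≠ i → L ≤ |b i - b i'|) ∧ R c (c.setC 0 b) := by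
  let f : Fin n → ℚ := fun i => (c i).1 0
  let σ : Equiv.Perm (Fin n) := (Tuple.sort f).symm
  have hmono : Monotone (f ∘ Tuple.sort f) := Tuple.monotone_sort f
  have hσ : ∀ i i', σ i < σ i' → f i ≤ f i' := by
    intro i i' h
    have := hmono h.le
    simpa [σ] using this
  let b : Fin n → ℚ := fun i => f i + L * (σ i : ℕ)
  have hbb : ∀ i i', σ i < σ i' → f i' - f i + L ≤ b i' - b i := by
    intro i i' h
    have h1 : ((σ i : ℕ) : ℚ) + 1 ≤ ((σ i' : ℕ) : ℚ) := by
      exact_mod_cast (Nat.succ_le_of_lt (Fin.lt_def.1 h))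
    have h2 : L * (((σ i : ℕ) : ℚ) + 1) ≤ L * ((σ i' : ℕ) : ℚ) := mul_le_mul_of_nonneg_left h1 hL
    simp only [b]
    linarith
  refine ⟨b, ?_, ?_⟩
  · intro i i' hi
    rcases lt_trichotomy (σ i) (σ i') with hlt | heq | hgt
    · have h1 := hbb i i' hlt
      have h2 := hσ i i' hlt
      rw [abs_sub_comm]
      refine le_trans ?_ (le_abs_self _)
      linarith
    · exact absurd (σ.injective heq).symm hi
    · have h1 := hbb i' i hgt
      have h2 := hσ i' i hgt
      refine le_trans ?_ (le_abs_self _)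
      linarith
  · refine hR.spread c hc hdisj 0 σ b (fun i i' h => hσ i i' h) ?_ ?_
    · intro i
      have : 0 ≤ L * ((σ i : ℕ) : ℚ) := mul_nonneg hL (Nat.cast_nonneg _)
      simp only [b, f]
      linarith
    · intro i i' h
      have h1 := hbb i i' h
      simp only [f] at h1
      linarith

/-- Reshaping one box to a new shape of the same volume. -/
theorem MoveRel.reshapeOne {n : ℕ} {R : Cfg n → Cfg n → Prop} (hR : MoveRel R) (c : Cfg n) (hc : c.Pos)
    (i : Fin n) (k : Fin 3 → ℚ) (hk : ∀ j, 0 < k j) (hvol : ∏ j : Fin 3, k j / (c i).2 j = 1) (ρ : ℚ)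
    (h1 : ∀ l, (c i).2 l ≤ ρ) (h2 : ∀ l, k l ≤ ρ) (h3 : (c i).2 2 * (c i).2 0 / k 0 ≤ ρ)
    (hsep : ∀ i', i' ≠ i → ρ + (c i').2 0 < |(c i).1 0 - (c i').1 0|) :
    R c (Function.update c i ((c i).1, k)) := by
  have hε : ∃ ε : ℚ, 0 < ε ∧ ∀ i', i' ≠ i → Disjoint (box (c i).1 (fun _ => ρ + ε))
      (box (c i').1 (c i').2) := by
    refine exists_eps _ ?_
    intro i'
    by_cases hi : i' = i
    · exact ⟨1, one_pos, fun ε _ _ h => absurd hi h⟩
    have := hsep i' hi
    refine ⟨(|(c i).1 0 - (c i').1 0| - (ρ + (c i').2 0)) / 2, by linarith, ?_⟩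
    intro ε hε0 hε _
    refine disjoint_box_of_sep 0 ?_
    linarith
  obtain ⟨ε, hε0, hε⟩ := hε
  have p0 := hc i 0
  have p1 := hc i 1
  have p2 := hc i 2
  have q0 := hk 0
  have q1 := hk 1
  have q2 := hk 2
  have hv : k 0 * k 1 * k 2 = (c i).2 0 * (c i).2 1 * (c i).2 2 := by
    rw [Fin.prod_univ_three] at hvol
    field_simp at hvol
    linarith
  -- first move
  let c1 : Cfg n := Function.update c i ((c i).1,
    Function.update (Function.update (c i).2 0 (k 0 / (c i).2 0 * (c i).2 0)) 2
      ((c i).2 2 / (k 0 / (c i).2 0)))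
  have m1 : R c c1 := by
    refine hR.reshape c i 0 2 (k 0 / (c i).2 0) ρ ε hc hε0 (by decide) (div_pos q0 p0) h1 ?_ ?_ hε
    · rw [div_mul_cancel₀ _ p0.ne']; exact h2 0
    · have : (c i).2 2 / (k 0 / (c i).2 0) = (c i).2 2 * (c i).2 0 / k 0 := by
        field_simp
      rw [this]; exact h3
  have c1i : c1 i = ((c i).1, Function.update (Function.update (c i).2 0 (k 0)) 2
      ((c i).2 2 * (c i).2 0 / k 0)) := by
    simp only [c1, Function.update_self]
    have e1 : k 0 / (c i).2 0 * (c i).2 0 = k 0 := div_mul_cancel₀ _ p0.ne'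
    have e2 : (c i).2 2 / (k 0 / (c i).2 0) = (c i).2 2 * (c i).2 0 / k 0 := by
      field_simp
    rw [e1, e2]
  have c1i' : ∀ i', i' ≠ i → c1 i' = c i' := fun i' hi => by simp [c1, Function.update_of_ne hi]
  have v0 : (c1 i).2 0 = k 0 := by
    rw [c1i]; simp only; rw [Function.update_of_ne (by decide)]; simp
  have v1 : (c1 i).2 1 = (c i).2 1 := by
    rw [c1i]; simp only; rw [Function.update_of_ne (by decide), Function.update_of_ne (by decide)]
  have v2 : (c1 i).2 2 = (c i).2 2 * (c i).2 0 / k 0 := by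
    rw [c1i]; simp
  have hc1 : c1.Pos := by
    intro i' l
    by_cases hi : i' = i
    · subst hi
      fin_cases l
      · change 0 < (c1 _).2 0; rw [v0]; exact q0
      · change 0 < (c1 _).2 1; rw [v1]; exact p1
      · change 0 < (c1 _).2 2; rw [v2]; positivity
    · rw [c1i' _ hi]; exact hc _ _
  have m2 := hR.reshape c1 i 1 2 (k 1 / (c i).2 1) ρ ε hc1 hε0 (by decide) (div_pos q1 p1) (by
      intro l
      fin_cases l
      · change (c1 _).2 0 ≤ ρ; rw [v0]; exact h2 0
      · change (c1 _).2 1 ≤ ρ; rw [v1]; exact h1 1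
      · change (c1 _).2 2 ≤ ρ; rw [v2]; exact h3) (by
      rw [v1, div_mul_cancel₀ _ p1.ne']; exact h2 1) (by
      rw [v2]
      have : (c i).2 2 * (c i).2 0 / k 0 / (k 1 / (c i).2 1) = k 2 := by
        field_simp
        linarith
      rw [this]; exact h2 2) (by
      intro i' hi
      rw [c1i' _ hi, c1i]
      exact hε i' hi)
  have e3 : Function.update c1 i ((c1 i).1,
      Function.update (Function.update (c1 i).2 1 (k 1 / (c i).2 1 * (c1 i).2 1)) 2
        ((c1 i).2 2 / (k 1 / (c i).2 1))) = Function.update c i ((c i).1, k) := by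
    funext i'
    by_cases hi : i' = i
    · subst hi
      rw [Function.update_self, Function.update_self]
      refine Prod.ext ?_ ?_
      · simp [c1i]
      · funext l
        have e1 : k 1 / (c i').2 1 * (c1 i').2 1 = k 1 := by rw [v1, div_mul_cancel₀ _ p1.ne']
        have e2 : (c1 i').2 2 / (k 1 / (c i').2 1) = k 2 := by
          rw [v2]; field_simp; linarith
        simp only [e1, e2]
        fin_cases l
        · change Function.update (Function.update (c1 i').2 1 (k 1)) 2 (k 2) 0 = k 0
          rw [Function.update_of_ne (by decide), Function.update_of_ne (by decide), v0]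
        · change Function.update (Function.update (c1 i').2 1 (k 1)) 2 (k 2) 1 = k 1
          rw [Function.update_of_ne (by decide), Function.update_self]
        · change Function.update (Function.update (c1 i').2 1 (k 1)) 2 (k 2) 2 = k 2
          rw [Function.update_self]
    · rw [Function.update_of_ne hi, Function.update_of_ne hi, c1i' _ hi]
  rw [e3] at m2
  refine hR.trans _ _ _ hc hc1 ?_ m1 m2
  intro i' l
  by_cases hi : i' = i
  · subst hi; rw [Function.update_self]; exact hk l
  · rw [Function.update_of_ne hi]; exact hc _ _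

/-- Reshaping all boxes when they are far apart in coordinate `0`. -/
theorem MoveRel.reshapeAll {n : ℕ} {R : Cfg n → Cfg n → Prop} (hR : MoveRel R) (c : Cfg n) (hc : c.Pos)
    (k : Fin n → Fin 3 → ℚ) (hk : ∀ i j, 0 < k i j) (hvol : ∀ i, ∏ j : Fin 3, k i j / (c i).2 j = 1)
    (ρ : ℚ) (h1 : ∀ i l, (c i).2 l ≤ ρ) (h2 : ∀ i l, k i l ≤ ρ)
    (h3 : ∀ i, (c i).2 2 * (c i).2 0 / k i 0 ≤ ρ)
    (hsep : ∀ i i', i' ≠ i → 2 * ρ < |(c i).1 0 - (c i').1 0|) :
    R c (fun i => ((c i).1, k i)) := by
  refine hR.seq c _ hc (fun i j => hk i j) (Equiv.refl _) ?_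
  intro i
  set e : Cfg n := fun i' => if (Equiv.refl (Fin n)) i < (Equiv.refl (Fin n)) i' then ((c i').1, k i')
    else c i' with he
  have e1 : ∀ i', (e i').1 = (c i').1 := by
    intro i'; simp only [he]; split_ifs <;> rfl
  have e3 : e i = c i := by simp [he]
  have e2 : ∀ i' l, (e i').2 l ≤ ρ := by
    intro i' l; simp only [he]; split_ifs
    · exact h2 i' l
    · exact h1 i' l
  have hepos : e.Pos := by
    intro i' l; simp only [he]; split_ifs
    · exact hk i' l
    · exact hc i' l
  have := hR.reshapeOne e hepos i (k i) (hk i) (by rw [e3]; exact hvol i) ρ (e2 i) (h2 i)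
    (by rw [e3]; exact h3 i) (by
      intro i' hi
      rw [e1, e1]
      have := hsep i i' hi
      have := e2 i' 0
      linarith)
  rw [e3] at this
  exact this

/-- Main combinatorial theorem. -/
theorem path {n : ℕ} {R : Cfg n → Cfg n → Prop} (hR : MoveRel R) (c d : Cfg n) (hc : c.Pos) (hd : d.Pos)
    (hcd : c.Disj) (hdd : d.Disj) (hvol : ∀ i, ∏ j : Fin 3, (d i).2 j / (c i).2 j = 1) : R c d := by
  obtain ⟨ρ, hρ⟩ : ∃ ρ : ℚ, ∀ i, (∀ l, (c i).2 l ≤ ρ) ∧ (∀ l, (d i).2 l ≤ ρ) ∧
      (c i).2 2 * (c i).2 0 / (d i).2 0 ≤ ρ := by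
    let g : Fin n → ℚ := fun i => (∑ l, (c i).2 l) + (∑ l, (d i).2 l) +
      (c i).2 2 * (c i).2 0 / (d i).2 0
    have hg1 : ∀ i l, (c i).2 l ≤ ∑ l, (c i).2 l := fun i l =>
      Finset.single_le_sum (f := fun l => (c i).2 l) (fun l _ => (hc i l).le) (Finset.mem_univ l)
    have hg2 : ∀ i l, (d i).2 l ≤ ∑ l, (d i).2 l := fun i l =>
      Finset.single_le_sum (f := fun l => (d i).2 l) (fun l _ => (hd i l).le) (Finset.mem_univ l)
    have hg3 : ∀ i, 0 < (c i).2 2 * (c i).2 0 / (d i).2 0 := fun i =>
      div_pos (mul_pos (hc i 2) (hc i 0)) (hd i 0)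
    have hg4 : ∀ i, 0 ≤ ∑ l, (c i).2 l := fun i => Finset.sum_nonneg fun l _ => (hc i l).le
    have hg5 : ∀ i, 0 ≤ ∑ l, (d i).2 l := fun i => Finset.sum_nonneg fun l _ => (hd i l).le
    have hg0 : ∀ i, 0 ≤ g i := fun i => by
      have := hg3 i; have := hg4 i; have := hg5 i; simp only [g]; linarith
    refine ⟨∑ i, g i, fun i => ?_⟩
    have hle : g i ≤ ∑ i, g i := Finset.single_le_sum (fun i _ => hg0 i) (Finset.mem_univ i)
    have a3 := hg3 i
    have a4 := hg4 i
    have a5 := hg5 i
    simp only [g] at hle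
    refine ⟨fun l => ?_, fun l => ?_, ?_⟩
    · have := hg1 i l; linarith
    · have := hg2 i l; linarith
    · linarith
  by_cases hn : Nonempty (Fin n)
  swap
  · have : c = d := by
      funext i; exact (hn ⟨i⟩).elim
    rw [this]; exact hR.refl _ hd
  have hρ0 : 0 < ρ := lt_of_lt_of_le (hc hn.some 0) ((hρ _).1 0)
  obtain ⟨b, hb, m1⟩ := hR.exists_spread c hc hcd (2 * ρ + 1) (by linarith)
  obtain ⟨b', hb', m6⟩ := hR.reverse.exists_spread d hd hdd (2 * ρ + 1) (by linarith)
  -- c1 : spread configuration with the old shapes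
  have p1 : (c.setC 0 b).Pos := Cfg.setC_pos hc 0 b
  have m2 : R (c.setC 0 b) (fun i => ((c.setC 0 b i).1, (d i).2)) := by
    refine hR.reshapeAll _ p1 (fun i => (d i).2) hd hvol ρ (fun i => (hρ i).1) (fun i => (hρ i).2.1)
      (fun i => (hρ i).2.2) ?_
    intro i i' hi
    have := hb i i' hi
    simp only [Cfg.setC, Function.update_self]
    linarith
  set c2 : Cfg n := fun i => ((c.setC 0 b i).1, (d i).2) with hc2
  have p2 : c2.Pos := fun i j => hd i j
  have m3 : R c2 (c2.setC 1 (fun i => (2 * ρ + 1) * (i : ℕ))) := by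
    refine hR.setC_of_sep c2 p2 1 0 (by decide) _ ?_
    intro i i' hi
    have := hb i i' hi
    simp only [hc2, Cfg.setC, Function.update_self]
    have h1 := (hρ i).2.1 0
    have h2 := (hρ i').2.1 0
    linarith
  set c3 : Cfg n := c2.setC 1 (fun i => (2 * ρ + 1) * (i : ℕ)) with hc3
  have p3 : c3.Pos := Cfg.setC_pos p2 _ _
  have m4 : R c3 (c3.setC 0 b') := by
    refine hR.setC_of_sep c3 p3 0 1 (by decide) _ ?_
    intro i i' hi
    simp only [hc3, Cfg.setC, Function.update_self]
    have h1 : (c2 i).2 1 ≤ ρ := (hρ i).2.1 1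
    have h2 : (c2 i').2 1 ≤ ρ := (hρ i').2.1 1
    have h3 : (1 : ℚ) ≤ |((i : ℕ) : ℚ) - ((i' : ℕ) : ℚ)| := by
      have h4 : ((i : ℕ) : ℤ) ≠ ((i' : ℕ) : ℤ) := by
        intro h
        apply hi
        apply Fin.ext
        exact_mod_cast h.symm
      have h5 : (1 : ℤ) ≤ |((i : ℕ) : ℤ) - ((i' : ℕ) : ℤ)| := Int.one_le_abs (sub_ne_zero.2 h4)
      exact_mod_cast h5
    have h6 : |(2 * ρ + 1) * ((i : ℕ) : ℚ) - (2 * ρ + 1) * ((i' : ℕ) : ℚ)| =
        (2 * ρ + 1) * |((i : ℕ) : ℚ) - ((i' : ℕ) : ℚ)| := by
      rw [← mul_sub, abs_mul, abs_of_pos (by linarith : (0 : ℚ) < 2 * ρ + 1)]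
    rw [h6]
    have h7 : (2 * ρ + 1) * 1 ≤ (2 * ρ + 1) * |((i : ℕ) : ℚ) - ((i' : ℕ) : ℚ)| :=
      mul_le_mul_of_nonneg_left h3 (by linarith)
    linarith
  set c4 : Cfg n := c3.setC 0 b' with hc4
  have p4 : c4.Pos := Cfg.setC_pos p3 _ _
  have m5 : R c4 (c4.setC 1 (fun i => (d i).1 1)) := by
    refine hR.setC_of_sep c4 p4 1 0 (by decide) _ ?_
    intro i i' hi
    have := hb' i i' hi
    simp only [hc4, Cfg.setC, Function.update_self]
    have h1 : (c3 i).2 0 ≤ ρ := (hρ i).2.1 0
    have h2 : (c3 i').2 0 ≤ ρ := (hρ i').2.1 0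
    linarith
  set c5 : Cfg n := c4.setC 1 (fun i => (d i).1 1) with hc5
  have p5 : c5.Pos := Cfg.setC_pos p4 _ _
  have m5' : R c5 (c5.setC 2 (fun i => (d i).1 2)) := by
    refine hR.setC_of_sep c5 p5 2 0 (by decide) _ ?_
    intro i i' hi
    have := hb' i i' hi
    have e : ∀ i, (c5 i).1 0 = b' i := by
      intro i
      simp only [hc5, hc4, Cfg.setC]
      rw [Function.update_of_ne (by decide), Function.update_self]
    rw [e, e]
    have h1 : (c5 i).2 0 ≤ ρ := (hρ i).2.1 0
    have h2 : (c5 i').2 0 ≤ ρ := (hρ i').2.1 0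
    linarith
  have p6 : (c5.setC 2 (fun i => (d i).1 2)).Pos := Cfg.setC_pos p5 _ _
  have e6 : c5.setC 2 (fun i => (d i).1 2) = d.setC 0 b' := by
    funext i
    refine Prod.ext ?_ rfl
    funext l
    simp only [hc5, hc4, hc3, Cfg.setC]
    fin_cases l
    · simp
    · simp
    · simp
  rw [e6] at m5' p6
  exact hR.trans _ _ _ hc p1 hd m1 <| hR.trans _ _ _ p1 p2 hd m2 <| hR.trans _ _ _ p2 p3 hd m3 <|
    hR.trans _ _ _ p3 p4 hd m4 <| hR.trans _ _ _ p4 p5 hd m5 <| hR.trans _ _ _ p5 p6 hd m5' m6

end Crest.Agent.R126
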