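/- R126 (S0170): assembling. -/
import Mathlib
import Crest.Agent.R126.Defs
import Crest.Agent.R126.Comp
import Crest.Agent.R126.Tensor
import Crest.Agent.R126.Flow
import Crest.Agent.R126.Elem
import Crest.Agent.R126.Path

set_option autoImplicit false
open scoped ContDiff
open Crest.AnalysisR.BoxFlow

namespace Crest.Agent.R126

theorem good_zero : Good (fun _ => 0) where
  smooth := contDiff_const
  compact := HasCompactSupport.zero
  eff := effective_zero
  time := fun _ _ => rfl
  div := fun p => by simp [spaceDiv]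

theorem Realizes.refl {n : ℕ} (c : Cfg n) (hc : c.Pos) : Realizes c c := by
  refine ⟨fun _ => 0, fun _ x => x, good_zero, ⟨fun x => rfl, fun t x => hasDerivAt_const t x⟩, fun i => ?_⟩
  refine ⟨Set.univ, isOpen_univ, Set.subset_univ _, fun x _ => ?_⟩
  funext j
  have h : (c i).2 j / (c i).2 j = 1 := div_self (hc i j).ne'
  rw [h]
  push_cast
  ring

theorem spaceDiv_add {U V : Field} (hU : ContDiff ℝ ∞ U) (hV : ContDiff ℝ ∞ V) (p : ℝ × (Fin 3 → ℝ)) :
    spaceDiv (fun p => U p + V p) p = spaceDiv U p + spaceDiv V p := by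
  unfold spaceDiv
  rw [fderiv_fun_add (hU.differentiable (by simp) p) (hV.differentiable (by simp) p)]
  simp [Finset.sum_add_distrib]

theorem spaceDiv_rescale {U : Field} (hU : ContDiff ℝ ∞ U) (a b : ℝ) (p : ℝ × (Fin 3 → ℝ)) :
    spaceDiv (fun p => a • U (a * p.1 + b, p.2)) p = a * spaceDiv U (a * p.1 + b, p.2) := by
  have h : ∀ j : Fin 3, fderiv ℝ (fun p : ℝ × (Fin 3 → ℝ) => a • U (a * p.1 + b, p.2)) p (0, Pi.single j 1) =
      a • fderiv ℝ U (a * p.1 + b, p.2) (0, Pi.single j 1) := by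
    intro j
    have h1 := mixedDeriv_rescale hU a b [j.succ]
    have h2 := congrFun h1 p
    simpa [mixedDeriv, direction_succ] using h2
  unfold spaceDiv
  simp only [h, Pi.smul_apply, smul_eq_mul, Finset.mul_sum]

theorem rescale_contDiff {U : Field} (hU : ContDiff ℝ ∞ U) (a b : ℝ) :
    ContDiff ℝ ∞ (fun p : ℝ × (Fin 3 → ℝ) => a • U (a * p.1 + b, p.2)) := by
  refine ContDiff.const_smul a (hU.comp (ContDiff.prodMk ?_ contDiff_snd))
  exact (contDiff_const.mul contDiff_fst).add contDiff_const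

theorem rescale_compact {U : Field} (hc : HasCompactSupport U) {a b : ℝ} (ha : a ≠ 0) :
    HasCompactSupport (fun p : ℝ × (Fin 3 → ℝ) => a • U (a * p.1 + b, p.2)) := by
  let e : ℝ × (Fin 3 → ℝ) ≃ₜ ℝ × (Fin 3 → ℝ) :=
    Homeomorph.prodCongr ((Homeomorph.mulLeft₀ a ha).trans (Homeomorph.addRight b)) (Homeomorph.refl _)
  have h1 : HasCompactSupport (U ∘ e) := hc.comp_homeomorph e
  have h2 : (fun p : ℝ × (Fin 3 → ℝ) => a • U (a * p.1 + b, p.2)) = (fun y : Fin 3 → ℝ => a • y) ∘ (U ∘ e) := by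
    funext p
    rfl
  rw [h2]
  exact h1.comp_left (smul_zero a)

theorem Good.concat {U V : Field} (hU : Good U) (hV : Good V) :
    Good (fun p => (2 : ℝ) • U (2 * p.1 + (-1 / 4), p.2) + (2 : ℝ) • V (2 * p.1 + (-3 / 4), p.2)) := by
  have cU := rescale_contDiff hU.smooth 2 (-1 / 4)
  have cV := rescale_contDiff hV.smooth 2 (-3 / 4)
  have eU := effective_rescale hU.smooth hU.eff 2 (-1 / 4)
  have eV := effective_rescale hV.smooth hV.eff 2 (-3 / 4)
  push_cast at eU eV
  refine ⟨cU.add cV, (rescale_compact hU.compact two_ne_zero).add (rescale_compact hV.compact two_ne_zero),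
    effective_add cU cV eU eV, ?_, ?_⟩
  · intro p hp
    have h1 : U (2 * p.1 + (-1 / 4), p.2) = 0 := hU.time _ fun h => hp ⟨by linarith [h.1], by
      have := h.2; dsimp only at this; linarith⟩
    have h2 : V (2 * p.1 + (-3 / 4), p.2) = 0 := hV.time _ fun h => hp ⟨by
      have := h.1; dsimp only at this; linarith, by have := h.2; dsimp only at this; linarith⟩
    simp [h1, h2]
  · intro p
    rw [spaceDiv_add cU cV, spaceDiv_rescale hU.smooth, spaceDiv_rescale hV.smooth, hU.div, hV.div]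
    simp

theorem Realizes.trans {n : ℕ} (c d e : Cfg n) (hc : c.Pos) (hd : d.Pos) (he : e.Pos) (h₁ : Realizes c d)
    (h₂ : Realizes d e) : Realizes c e := by
  obtain ⟨U₁, Φ₁, g₁, f₁, o₁⟩ := h₁
  obtain ⟨U₂, Φ₂, g₂, f₂, o₂⟩ := h₂
  obtain ⟨Φ, hΦ, hΦ1⟩ := concat_flow g₁.time g₂.time g₁.smooth g₂.smooth g₁.compact g₂.compact f₁ f₂
  refine ⟨_, Φ, g₁.concat g₂, hΦ, fun i => ?_⟩
  obtain ⟨O₁, hO₁, hb₁, hm₁⟩ := o₁ i
  obtain ⟨O₂, hO₂, hb₂, hm₂⟩ := o₂ i
  let M : (Fin 3 → ℝ) → (Fin 3 → ℝ) := fun x j => ((d i).1 j : ℝ) +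
    (((d i).2 j / (c i).2 j : ℚ) : ℝ) * (x j - ((c i).1 j : ℝ))
  have hM : Continuous M := by
    refine continuous_pi fun j => ?_
    exact continuous_const.add (continuous_const.mul ((continuous_apply j).sub continuous_const))
  refine ⟨O₁ ∩ M ⁻¹' O₂, hO₁.inter (hO₂.preimage hM), ?_, ?_⟩
  · intro x hx
    refine ⟨hb₁ hx, hb₂ ?_⟩
    intro j
    have h1 := hx j
    have hcj : (0 : ℝ) < ((c i).2 j : ℝ) := by exact_mod_cast hc i j
    have hdj : (0 : ℝ) < ((d i).2 j : ℝ) := by exact_mod_cast hd i j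
    simp only [M, add_sub_cancel_left]
    push_cast
    rw [abs_mul, abs_of_pos (div_pos hdj hcj), div_mul_eq_mul_div, div_le_iff₀ hcj]
    exact mul_le_mul_of_nonneg_left h1 hdj.le
  · intro x hx
    rw [hΦ1 x, hm₁ x hx.1, hm₂ _ hx.2]
    funext j
    have hcj : ((c i).2 j : ℝ) ≠ 0 := by exact_mod_cast (hc i j).ne'
    have hdj : ((d i).2 j : ℝ) ≠ 0 := by exact_mod_cast (hd i j).ne'
    simp only [M]
    push_cast
    field_simp
    ring

theorem box_isClosed (a h : Fin 3 → ℚ) : IsClosed (box a h) := by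
  have : box a h = ⋂ j : Fin 3, {x : Fin 3 → ℝ | |x j - (a j : ℝ)| ≤ (h j : ℝ)} := by
    ext x; simp [box]
  rw [this]
  exact isClosed_iInter fun j =>
    isClosed_le ((continuous_apply j).sub continuous_const).abs continuous_const

theorem moveRel_realizes (n : ℕ) : MoveRel (Realizes (n := n)) where
  refl := fun c hc => Realizes.refl c hc
  trans := fun c d e hc hd he h₁ h₂ => Realizes.trans c d e hc hd he h₁ h₂
  translate := by
    intro c i j w ε hc hε hfree
    obtain ⟨U, Φ, hU, hΦ, hout, O, hO, hbO, hOm⟩ := exists_translate (c i).1 (c i).2 (hc i) j w ε hε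
    refine ⟨U, Φ, hU, hΦ, fun i' => ?_⟩
    by_cases hi : i' = i
    · subst hi
      refine ⟨O, hO, hbO, fun x hx => ?_⟩
      rw [hOm x hx]
      funext l
      have hcl : (c i').2 l / (c i').2 l = 1 := div_self (hc i' l).ne'
      simp only [Function.update_self]
      rw [hcl]
      by_cases hl : l = j
      · subst hl
        simp only [Function.update_self]
        push_cast
        ring
      · simp only [Function.update_of_ne hl]
        push_cast
        ring
    · refine ⟨(box (Function.update (c i).1 j ((c i).1 j + w / 2))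
        (fun l => Function.update (c i).2 j ((c i).2 j + |w| / 2) l + ε))ᶜ,
        (box_isClosed _ _).isOpen_compl, ?_, fun x hx => ?_⟩
      · exact (Set.disjoint_left.mp (hfree i' hi).symm)
      · rw [hout x hx]
        funext l
        have hcl : (c i').2 l / (c i').2 l = 1 := div_self (hc i' l).ne'
        simp only [Function.update_of_ne hi]
        rw [hcl]
        push_cast
        ring
  reshape := by
    intro c i j j' lam ρ ε hc hε hj hlam hρ hρ1 hρ2 hfree
    obtain ⟨U, Φ, hU, hΦ, hout, O, hO, hbO, hOm⟩ := exists_reshape (c i).1 (c i).2 (hc i) j j' hj lam ρ ε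
      hlam hε hρ hρ1 hρ2
    refine ⟨U, Φ, hU, hΦ, fun i' => ?_⟩
    by_cases hi : i' = i
    · subst hi
      refine ⟨O, hO, hbO, fun x hx => ?_⟩
      rw [hOm x hx]
      funext l
      have hne : (c i').2 l ≠ 0 := (hc i' l).ne'
      have hlam' : lam ≠ 0 := hlam.ne'
      simp only [Function.update_self]
      by_cases hl' : l = j'
      · subst hl'
        simp only [Function.update_self]
        have : (c i').2 l / lam / (c i').2 l = 1 / lam := by field_simp
        rw [this]
        push_cast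
        ring
      · by_cases hl : l = j
        · subst hl
          simp only [Function.update_of_ne hl', Function.update_self]
          have : lam * (c i').2 l / (c i').2 l = lam := by field_simp
          rw [this]
        · simp only [Function.update_of_ne hl', Function.update_of_ne hl]
          rw [div_self hne]
          push_cast
          ring
    · refine ⟨(box (c i).1 (fun _ => ρ + ε))ᶜ, (box_isClosed _ _).isOpen_compl, ?_, fun x hx => ?_⟩
      · exact (Set.disjoint_left.mp (hfree i' hi).symm)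
      · rw [hout x hx]
        funext l
        have hcl : (c i').2 l / (c i').2 l = 1 := div_self (hc i' l).ne'
        simp only [Function.update_of_ne hi]
        rw [hcl]
        push_cast
        ring

theorem main (n : ℕ) (a b h k : Fin n → Fin 3 → ℚ)
    (hh : ∀ i j, 0 < h i j) (hk : ∀ i j, 0 < k i j)
    (ha : Pairwise fun i i' => Disjoint (box (a i) (h i)) (box (a i') (h i')))
    (hb : Pairwise fun i i' => Disjoint (box (b i) (k i)) (box (b i') (k i')))
    (hvol : ∀ i, ∏ j : Fin 3, k i j / h i j = 1) :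
    ∃ (U : Field) (Φ : ℝ → (Fin 3 → ℝ) → (Fin 3 → ℝ)),
      ContDiff ℝ ∞ U ∧ HasCompactSupport U ∧ Effective U ∧
      (∀ p : ℝ × (Fin 3 → ℝ), p.1 ∉ Set.Icc (1 / 4 : ℝ) (3 / 4) → U p = 0) ∧
      (∀ p : ℝ × (Fin 3 → ℝ), spaceDiv U p = 0) ∧ IsFlow U Φ ∧
      ∀ i : Fin n, ∃ O : Set (Fin 3 → ℝ), IsOpen O ∧ box (a i) (h i) ⊆ O ∧
        ∀ x ∈ O, Φ 1 x = fun j => (b i j : ℝ) + ((k i j / h i j : ℚ) : ℝ) * (x j - (a i j : ℝ)) := by
  obtain ⟨U, Φ, hU, hΦ, hO⟩ := path (moveRel_realizes n) (fun i => (a i, h i)) (fun i => (b i, k i))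
    hh hk ha hb hvol
  exact ⟨U, Φ, hU.smooth, hU.compact, hU.eff, hU.time, hU.div, hΦ, hO⟩

end Crest.Agent.R126
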